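import Vale.Agent.P307.R2.H578.JR1
import Vale.Agent.P307.R2.H533.GDI

/-!
The enlargement of one face is peeled off at the lower level.
-/

universe u v

open Set Cardinal Function

namespace Vale.Agent.P307.R2.H578

open Vale.Agent.P307.R2.H541 Vale.Agent.P307.R2.H541.PG Vale.Agent.P307.R2.H533
open Vale.Agent.P307.R2.H68 (Clo exists_clo)
open Vale.Agent.P307.R2.H301 (TrN)

open scoped Classical

variable {ι : Type v} {C : Type u} {M : PG C} {τ : Cardinal.{u}} {S' : Set (Set C)}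

/-- A property of the closed sets of size at most `τ`, for some finitary operation. -/
def Cl (τ : Cardinal.{u}) (p : Set C → Prop) : Prop :=
  ∃ φ : Finset C → Set C, (∀ s, #(φ s) ≤ τ) ∧ ∀ H, Clo φ H → #H ≤ τ → p H

theorem Cl.mono {p q : Set C → Prop} (h : Cl τ p) (hpq : ∀ H : Set C, #H ≤ τ → p H → q H) : Cl τ q := by
  obtain ⟨φ, h1, h2⟩ := h
  exact ⟨φ, h1, fun H hH hHc => hpq H hHc (h2 H hH hHc)⟩

theorem Cl.of_forall {p : Set C → Prop} (h : ∀ H : Set C, #H ≤ τ → p H) : Cl τ p :=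
  ⟨fun _ => ∅, fun _ => by simp, fun H _ hHc => h H hHc⟩

theorem Cl.and (hτ : ℵ₀ ≤ τ) {p q : Set C → Prop} (hp : Cl τ p) (hq : Cl τ q) :
    Cl τ fun H => p H ∧ q H := by
  obtain ⟨φ, h1, h2⟩ := hp
  obtain ⟨ψ, h3, h4⟩ := hq
  refine ⟨fun s => φ s ∪ ψ s, fun s => (mk_union_le _ _).trans (add_le_of_le hτ (h1 s) (h3 s)),
    fun H hH hHc => ⟨h2 H (hH.mono fun s => subset_union_left) hHc,
      h4 H (hH.mono fun s => subset_union_right) hHc⟩⟩

theorem Cl.finset (hτ : ℵ₀ ≤ τ) {J : Type*} (T : Finset J) {p : J → Set C → Prop}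
    (h : ∀ j ∈ T, Cl τ (p j)) : Cl τ fun H => ∀ j ∈ T, p j H := by
  induction T using Finset.induction_on with
  | empty => exact Cl.of_forall fun H _ j hj => absurd hj (Finset.notMem_empty j)
  | insert a T ha ih =>
    refine ((h a (Finset.mem_insert_self a T)).and hτ
      (ih fun j hj => h j (Finset.mem_insert_of_mem hj))).mono fun H _ hH j hj => ?_
    rcases Finset.mem_insert.1 hj with rfl | hj
    · exact hH.1
    · exact hH.2 j hj

theorem Cl.all_lt (hτ : ℵ₀ ≤ τ) {p : Cardinal.{u} → Set C → Prop} (h : ∀ d < τ, Cl τ (p d)) :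
    Cl τ fun H => ∀ d < τ, p d H := by
  have h1 : ∀ d : Cardinal.{u}, ∃ φ : Finset C → Set C, (∀ s, #(φ s) ≤ τ) ∧
      (d < τ → ∀ H, Clo φ H → #H ≤ τ → p d H) := by
    intro d
    by_cases hd : d < τ
    · obtain ⟨φ, h1, h2⟩ := h d hd
      exact ⟨φ, h1, fun _ => h2⟩
    · exact ⟨fun _ => ∅, fun _ => by simp, fun h => absurd h hd⟩
  choose Φ hΦ1 hΦ2 using h1
  refine ⟨fun s => ⋃ y : τ.ord.ToType, Φ #(Iio y) s, fun s => ?_, fun H hH hHc d hd => ?_⟩
  · refine (mk_iUnion_le _).trans ?_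
    refine (mul_le_mul' ?_ (ciSup_le' fun (y : τ.ord.ToType) => hΦ1 _ s)).trans
      (mul_eq_self hτ).le
    rw [mk_toType, card_ord]
  · have h1 : d.ord < Ordinal.type (α := τ.ord.ToType) (· < ·) := by
      rw [Ordinal.type_toType]
      exact ord_lt_ord.2 hd
    obtain ⟨y, hy⟩ := Ordinal.typein_surj (α := τ.ord.ToType) (· < ·) h1
    have h2 := Ordinal.card_typein (α := τ.ord.ToType) (r := (· < ·)) y
    rw [hy, card_ord] at h2
    have h3 : #(Iio y) = d := h2.symm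
    refine hΦ2 d hd H (hH.mono fun s => ?_) hHc
    have h4 : Φ #(Iio y) s ⊆ ⋃ y : τ.ord.ToType, Φ #(Iio y) s :=
      subset_iUnion (fun y : τ.ord.ToType => Φ #(Iio y) s) y
    rw [h3] at h4
    exact h4

section loc

variable {s r : Finset ι}

theorem union_mem_ssubsets (hrs : r ⊆ s) {u : Finset ι} (hu : u ∈ (s \ r).ssubsets) :
    r ∪ u ∈ s.ssubsets := by
  rw [Finset.mem_ssubsets] at hu ⊢
  refine lt_of_le_of_ne (Finset.union_subset hrs (hu.1.trans Finset.sdiff_subset)) fun h => ?_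
  refine hu.2 fun z hz => ?_
  obtain ⟨h1, h2⟩ := Finset.mem_sdiff.1 hz
  rw [← h] at h1
  exact (Finset.mem_union.1 h1).resolve_left h2

theorem sdiff_mem_ssubsets {v : Finset ι} (hv : v ∈ s.ssubsets) (hrv : r ⊆ v) :
    v \ r ∈ (s \ r).ssubsets := by
  rw [Finset.mem_ssubsets] at hv ⊢
  refine lt_of_le_of_ne (Finset.sdiff_subset_sdiff hv.1 (Finset.Subset.refl r)) fun h => hv.2 ?_
  intro z hz
  by_cases hzr : z ∈ r
  · exact hrv hzr
  · have h1 : z ∈ s \ r := Finset.mem_sdiff.2 ⟨hz, hzr⟩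
    rw [← h] at h1
    exact (Finset.mem_sdiff.1 h1).1

variable {A : Finset ι → Set C}

theorem ifam_link (hrs : r ⊂ s) (hA : IFam M A s.ssubsets) :
    IFam M (fun u => A (r ∪ u)) (s \ r).ssubsets :=
  ⟨down_ssubsets (Finset.sdiff_nonempty.2 hrs.2), fun t ht => hA.mem _
    (union_mem_ssubsets hrs.1 ht), fun t ht q hq => hA.mono _ (union_mem_ssubsets hrs.1 ht) _
    (Finset.union_subset_union_right hq)⟩

theorem iref_link (hrs : r ⊂ s) (hR : IRef M A s.ssubsets) :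
    IRef M (fun u => A (r ∪ u)) (s \ r).ssubsets := by
  intro x E hE hEc
  by_cases hx : x ∈ r
  · refine ⟨1, M.G.one_mem, fun v hv e he hev => ⟨?_, fun _ => rfl⟩⟩
    have h1 : x ∉ v := fun h2 =>
      (Finset.mem_sdiff.1 ((Finset.mem_ssubsets.1 hv).1 h2)).2 hx
    rw [Finset.erase_eq_of_notMem h1]
    exact hev
  · have hE' : E ⊆ iun A s.ssubsets := by
      intro e he
      obtain ⟨v, hv, hev⟩ := hE he
      exact ⟨r ∪ v, union_mem_ssubsets hrs.1 hv, hev⟩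
    obtain ⟨g, hg, h1⟩ := hR x E hE' hEc
    refine ⟨g, hg, fun v hv e he hev => ?_⟩
    have h2 := h1 (r ∪ v) (union_mem_ssubsets hrs.1 hv) e he hev
    have h3 : (r ∪ v).erase x = r ∪ v.erase x := by
      rw [Finset.erase_union_distrib, Finset.erase_eq_of_notMem hx]
    rw [h3] at h2
    exact ⟨h2.1, fun h4 => h2.2 fun h5 => (Finset.mem_union.1 h5).elim hx h4⟩

theorem nbd_tr {P P' : Finset ι → Set C} {D H : Set C} {v : Finset ι} (hv : v ⊆ s \ r) :
    nbd (fun u => tr D (P (r ∪ u) ∩ H)) (fun u => tr D (P' (r ∪ u) ∩ H)) ∅ v =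
      tr D (nbd P P' r (r ∪ v) ∩ H) := by
  have hrv : ∀ z ∈ v, z ∉ r := fun z hz => (Finset.mem_sdiff.1 (hv hz)).2
  ext x
  constructor
  · rintro (hx | ⟨w, -, hw, hx⟩)
    · exact ⟨Or.inl hx.1, hx.2⟩
    · refine ⟨Or.inr ⟨r ∪ w, Finset.subset_union_left, ?_, hx.1⟩, hx.2⟩
      refine lt_of_le_of_ne (Finset.union_subset_union_right hw.1) fun h => hw.2 fun z hz => ?_
      have h1 : z ∈ r ∪ w := by
        rw [h]
        exact Finset.mem_union_right _ hz
      exact (Finset.mem_union.1 h1).resolve_left (hrv z hz)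
  · rintro ⟨hx | ⟨w, hw1, hw2, hx⟩, hxH⟩
    · exact Or.inl ⟨hx, hxH⟩
    · refine Or.inr ⟨w \ r, Finset.empty_subset _, ?_, ?_⟩
      · refine lt_of_le_of_ne ?_ fun h => hw2.2 ?_
        · intro z hz
          rw [Finset.mem_sdiff] at hz
          exact (Finset.mem_union.1 (hw2.1 hz.1)).resolve_left hz.2
        · intro z hz
          rcases Finset.mem_union.1 hz with h3 | h3
          · exact hw1 h3
          · rw [← h] at h3
            exact (Finset.mem_sdiff.1 h3).1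
      · change (x : C) ∈ P' (r ∪ w \ r) ∩ H
        rw [Finset.union_sdiff_of_subset hw1]
        exact ⟨hx, hxH⟩

end loc

/-- **Peeling**: the enlargement of one face is undone at the lower level. -/
theorem exists_peel (hM : M.Calc) (hls : ∀ X : Set C, #X ≤ M.χ → ∃ N ∈ M.S, X ⊆ N)
    (h2 : TwoLv M τ S') {n : ℕ} (hJR : ∀ j < n, JRk M τ ι j) (hSH : ∀ j < n, SHk M τ ι j)
    {s : Finset ι} (hs : s.card = n) {P P' : Finset ι → Set C} {r : Finset ι} {Q : Set C}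
    (hB : Blk M P P' s.ssubsets r Q) (hr : r.Nonempty) :
    Cl τ fun H => ∀ E ⊆ iun P' s.ssubsets ∩ H, #E < τ → ∀ q ⊆ Q ∩ H, #q < τ →
      ∃ g ∈ M.G, (∀ x ∈ q, g x = x) ∧
        ∀ v ∈ s.ssubsets, ∀ e ∈ E, e ∈ P' v → g e ∈ P v ∩ H := by
  have hτ := h2.ap
  have hrs : r ⊂ s := Finset.mem_ssubsets.1 hB.mem_r
  have hcard : (s \ r).card < n := by
    rw [← hs]
    exact Finset.card_lt_card (Finset.sdiff_ssubset hrs.1 hr)
  have hA1 := ifam_link hrs hB.fam
  have hR1 := iref_link hrs hB.ref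
  obtain ⟨N₁, hN₁, hN₁'⟩ := hls (iun (fun u => P (r ∪ u)) (s \ r).ssubsets)
    (card_iun fun v hv => (M.S_card (hA1.mem v hv)).le)
  have hcl1 : Cl τ fun H => M.JR τ (fun u => P (r ∪ u)) (s \ r).ssubsets H (N₁ ∩ H) :=
    hJR _ hcard _ _ rfl hA1 hR1 N₁ hN₁ (by rwa [← iun_ssubsets])
  have hcl2 : Cl τ fun H => ∀ u ∈ (s \ r).ssubsets, u.Nonempty → ∀ e ⊆ P' (r ∪ u) ∩ H,
      #e < τ → ∃ B ⊆ nbd P P' r (r ∪ u) ∩ H, #B < τ ∧ M.Isol B (nbd P P' r (r ∪ u)) e := by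
    refine Cl.finset hτ _ fun u hu => ?_
    by_cases hu0 : u.Nonempty
    · obtain ⟨c, hc⟩ := hr
      have hd : Disjoint u r := Finset.disjoint_left.2 fun z hz hz' =>
        (Finset.mem_sdiff.1 ((Finset.mem_ssubsets.1 hu).1 hz)).2 hz'
      have huF := union_mem_ssubsets hrs.1 hu
      have hsys := hB.fam.isys hB.ref huF
      have hdiff : (r ∪ u) \ r = u := by
        rw [Finset.union_sdiff_left]
        exact hd.sdiff_eq_left
      have hru : r ⊂ r ∪ u := by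
        refine lt_of_le_of_ne Finset.subset_union_left fun h4 => ?_
        obtain ⟨z, hz⟩ := hu0
        have h5 : z ∈ r := by
          rw [h4]
          exact Finset.mem_union_right _ hz
        exact Finset.disjoint_left.1 hd hz h5
      have hE : Ext1 M (lnk P P' r c) u c := by
        have h3 := ext1_lnk (A := P) (P := P') hc Finset.subset_union_left hsys hB.memB hB.subB
          (hB.ind.mono Subset.rfl (hB.sub_face huF)) fun w hw1 hw2 =>
            hB.atomic w (hB.fam.down.2 _ huF w hw2.1) hw1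
        rwa [hdiff] at h3
      have hcu : c ∉ u := fun h => Finset.disjoint_left.1 hd h hc
      have hk : (insert c u).card < n := by
        rw [Finset.card_insert_of_notMem hcu]
        have h3 := Finset.card_lt_card (Finset.mem_ssubsets.1 hu)
        omega
      have hibd : ibd (lnk P P' r c) (insert c u) = nbd P P' r (r ∪ u) :=
        ibd_lnk hc hd fun w hw => hsys.mono (Finset.Subset.refl _)
          (Finset.union_subset_union_right hw)
      have hat := hB.atomic _ huF hru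
      obtain ⟨ψ, hψ⟩ := hSH _ hk (lnk P P' r c) (insert c u) rfl hE.fam (hE.ref hM)
        (P' (r ∪ u)) hat.mem (by
          rw [hibd]
          exact hat.sub)
      rw [hibd] at hψ
      exact ⟨ψ, hψ.card, fun H hH hHc _ e he hec => hψ.shrink H hH hHc e he hec
        (hat.iso e (he.trans inter_subset_left) (hec.trans h2.lt))⟩
    · exact Cl.of_forall fun H _ h => absurd h hu0
  have hcl3 : Cl τ fun H => ∀ v ∈ s.ssubsets, (P v ∩ H ∈ S' ∧ ∀ E ⊆ P v, #E < τ → ∀ q ⊆ H,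
      #q < τ → ∃ g ∈ M.G, (∀ x ∈ q, g x = x) ∧ ∀ e ∈ E, g e ∈ P v ∩ H) ∧ P' v ∩ H ∈ S' := by
    refine Cl.finset hτ _ fun v hv => ?_
    exact Cl.and hτ (h2.ec _ (hB.fam.mem v hv))
      (Cl.mono (h2.ec _ (hB.mem hv)) fun H _ h => h.1)
  refine ((hcl1.and hτ hcl2).and hτ hcl3).mono fun H hHc hH => ?_
  obtain ⟨⟨hJ, hI⟩, hT⟩ := hH
  obtain ⟨D, M', hHD, hχ, hL, hM', hmem⟩ := h2.low H hHc
  have hF0 : (∅ : Finset ι) ∈ (s \ r).ssubsets := hA1.down.1
  have hr0 : r ∪ ∅ = r := Finset.union_empty r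
  have hmem1 : ∀ u ∈ (s \ r).ssubsets, tr D (P (r ∪ u) ∩ H) ∈ M'.S := fun u hu =>
    hmem _ (hT _ (union_mem_ssubsets hrs.1 hu)).1.1 (inter_subset_right.trans hHD)
  have hmem2 : ∀ u ∈ (s \ r).ssubsets, tr D (P' (r ∪ u) ∩ H) ∈ M'.S := fun u hu =>
    hmem _ (hT _ (union_mem_ssubsets hrs.1 hu)).2 (inter_subset_right.trans hHD)
  -- the local system at the lower level
  have hblk : Blk M' (fun u => tr D (P (r ∪ u) ∩ H)) (fun u => tr D (P' (r ∪ u) ∩ H))
      (s \ r).ssubsets ∅ (tr D (Q ∩ H)) := by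
    refine ⟨⟨hA1.down, hmem1, fun t ht q hq => tr_mono (inter_subset_inter_left H
      (hA1.mono t ht q hq))⟩, ?_, hF0, ?_, hmem2 _ hF0, ?_, ?_, ?_, ?_⟩
    · refine hL.iref_tr hA1.down hR1 ?_ ?_
      · rw [hχ]
        exact hJ.mono (Finset.Subset.refl _) (inter_subset_inter_left H hN₁')
      · exact inter_subset_right.trans hHD
    · rintro x ⟨v, hv, hx⟩
      exact ⟨hB.sub_face (union_mem_ssubsets hrs.1 hv) hx.1, hx.2⟩
    · refine tr_mono (inter_subset_inter_left H ?_)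
      rw [hr0]
      exact hB.subB
    · rw [hr0]
      refine hL.ind_dn (inter_subset_right.trans hHD) ?_
      rw [hχ]
      intro A' hA' hAc B' hB' hBc
      have hA2 : A' ⊆ (P r ∪ P' r) ∩ H := by
        rintro x hx
        rcases hA' hx with h1 | h1
        · exact ⟨Or.inl h1.1, h1.2⟩
        · exact ⟨Or.inr h1.1, h1.2⟩
      obtain ⟨g, hg, h3, h4⟩ := hB.ind A' (hA2.trans inter_subset_left) (hAc.trans h2.lt) B'
        (hB'.trans inter_subset_left) (hBc.trans h2.lt)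
      obtain ⟨k, hk, h5, h6⟩ := (hT r hB.mem_r).1.2 (g '' B') (by
        rintro _ ⟨b, hb, rfl⟩
        exact h4 b hb) (mk_image_le.trans_lt hBc) A' (hA2.trans inter_subset_right) hAc
      refine ⟨k * g, M.G.mul_mem hk hg, fun a ha => ?_, fun b hb => ?_⟩
      · rw [Equiv.Perm.mul_apply, h3 a ha, h5 a ha]
      · rw [Equiv.Perm.mul_apply]
        exact h6 _ ⟨b, hb, rfl⟩
    · intro v _ h
      exact absurd (Finset.empty_subset v) h
    · intro v hv hv0
      rw [nbd_tr (Finset.mem_ssubsets.1 hv).1]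
      have hvn : v.Nonempty := Finset.nonempty_iff_ne_empty.2 hv0.ne'
      have hvF := union_mem_ssubsets hrs.1 hv
      have hrv : r ⊂ r ∪ v := by
        refine lt_of_le_of_ne Finset.subset_union_left fun h4 => ?_
        obtain ⟨z, hz⟩ := hvn
        have h5 : z ∈ r := by
          rw [h4]
          exact Finset.mem_union_right _ hz
        exact (Finset.mem_sdiff.1 ((Finset.mem_ssubsets.1 hv).1 hz)).2 h5
      refine hL.atomic_dn (hmem2 v hv) (inter_subset_right.trans hHD)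
        (inter_subset_inter_left H (hB.atomic _ hvF hrv).sub) fun E hE hEc => ?_
      rw [hχ] at hEc ⊢
      obtain ⟨B, h3, h4, h5⟩ := hI v hv hvn E hE hEc
      exact ⟨B, h3, h4, (h5.toT h2.lt.le).mono inter_subset_left⟩
  have hC := hblk.refC hM'
  intro E hE hEc q hq hqc
  -- the part of `E` above `r`, and the rest
  let E₁ : Set C := E ∩ {x | ∃ v ∈ s.ssubsets, r ⊆ v ∧ x ∈ P' v}
  let D₁ : Set C := q ∪ (E ∩ Q)
  have hE₁D : E₁ ⊆ D := fun x hx => hHD (hE hx.1).2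
  have hD₁D : D₁ ⊆ D := by
    rintro x (hx | hx)
    · exact hHD (hq hx).2
    · exact hHD (hE hx.1).2
  have hE₁c : #E₁ < τ := (mk_le_mk_of_subset inter_subset_left).trans_lt hEc
  have hD₁c : #D₁ < τ := (mk_union_le _ _).trans_lt (add_lt_of_lt hτ hqc
    ((mk_le_mk_of_subset inter_subset_left).trans_lt hEc))
  obtain ⟨g', hg', h3, h4⟩ := hC (tr D E₁) (by
    rintro x ⟨hxE, v, hv, hrv, hxv⟩
    refine ⟨v \ r, sdiff_mem_ssubsets hv hrv, ?_, (hE hxE).2⟩
    rw [Finset.union_sdiff_of_subset hrv]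
    exact hxv) (by rw [mk_tr hE₁D, hχ]; exact hE₁c) (tr D D₁) (by
    rintro x (hx | hx)
    · exact hq hx
    · exact ⟨hx.2, (hE hx.1).2⟩) (by rw [mk_tr hD₁D, hχ]; exact hD₁c)
  obtain ⟨g, hg, h5⟩ := hL.up' (A := E₁ ∪ D₁) (union_subset hE₁D hD₁D) (by
    rw [hχ]
    exact (mk_union_le _ _).trans_lt (add_lt_of_lt hτ hE₁c hD₁c)) hg'
  have hfix : ∀ x ∈ D₁, g x = x := by
    intro x hx
    have h6 := h5 ⟨x, hD₁D hx⟩ (Or.inr hx)
    rw [h3 ⟨x, hD₁D hx⟩ hx] at h6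
    exact h6
  refine ⟨g, hg, fun x hx => hfix x (Or.inl hx), fun v hv e he hev => ?_⟩
  by_cases hrv : r ⊆ v
  · have heE : e ∈ E₁ := ⟨he, v, hv, hrv, hev⟩
    have h6 := h4 (v \ r) (sdiff_mem_ssubsets hv hrv) ⟨e, hE₁D heE⟩ heE (by
      change e ∈ P' (r ∪ v \ r) ∩ H
      rw [Finset.union_sdiff_of_subset hrv]
      exact ⟨hev, (hE he).2⟩)
    have h7 : (g' ⟨e, hE₁D heE⟩ : C) ∈ P (r ∪ v \ r) ∩ H := h6
    rw [Finset.union_sdiff_of_subset hrv, ← h5 ⟨e, hE₁D heE⟩ (Or.inl heE)] at h7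
    exact h7
  · rw [hB.same v hv hrv] at hev
    rw [hfix e (Or.inr ⟨he, hB.sub_face hv hev⟩)]
    exact ⟨hev, (hE he).2⟩

/-- The scaffold is peeled off at the lower level. -/
theorem exists_peels (hM : M.Calc) (hls : ∀ X : Set C, #X ≤ M.χ → ∃ N ∈ M.S, X ⊆ N)
    (h2 : TwoLv M τ S') {n : ℕ} (hJR : ∀ j < n, JRk M τ ι j) (hSH : ∀ j < n, SHk M τ ι j)
    {s : Finset ι} (hs : s.card = n) {P : ℕ → Finset ι → Set C} {r : ℕ → Finset ι}
    {Q : ℕ → Set C} {N : Set C} (m : ℕ)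
    (hB : ∀ i < m, Blk M (P i) (P (i + 1)) s.ssubsets (r i) (Q i))
    (hr : ∀ i < m, (r i).Nonempty) (hN : ∀ i < m, N ⊆ Q i) :
    Cl τ fun H => ∀ E ⊆ iun (P m) s.ssubsets ∩ H, #E < τ → ∀ q ⊆ N ∩ H, #q < τ →
      ∃ g ∈ M.G, (∀ x ∈ q, g x = x) ∧
        ∀ v ∈ s.ssubsets, ∀ e ∈ E, e ∈ P m v → g e ∈ P 0 v ∩ H := by
  induction m with
  | zero =>
    refine Cl.of_forall fun H _ E hE _ q _ _ => ⟨1, M.G.one_mem, fun _ _ => rfl,
      fun v _ e he hev => ⟨hev, (hE he).2⟩⟩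
  | succ m ih =>
    have h3 := ih (fun i hi => hB i (hi.trans (Nat.lt_succ_self m)))
      (fun i hi => hr i (hi.trans (Nat.lt_succ_self m)))
      (fun i hi => hN i (hi.trans (Nat.lt_succ_self m)))
    have h4 := exists_peel hM hls h2 hJR hSH hs (hB m (Nat.lt_succ_self m))
      (hr m (Nat.lt_succ_self m))
    refine (h3.and h2.ap h4).mono fun H _ hH E hE hEc q hq hqc => ?_
    obtain ⟨g, hg, h5, h6⟩ := hH.2 E hE hEc q
      (hq.trans (inter_subset_inter_left H (hN m (Nat.lt_succ_self m)))) hqc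
    have hgE : ∀ e ∈ E, g e ∈ iun (P m) s.ssubsets ∩ H := by
      intro e he
      obtain ⟨v, hv, hev⟩ := (hE he).1
      exact ⟨⟨v, hv, (h6 v hv e he hev).1⟩, (h6 v hv e he hev).2⟩
    obtain ⟨k, hk, h7, h8⟩ := hH.1 (g '' E) (by
      rintro _ ⟨e, he, rfl⟩
      exact hgE e he) (mk_image_le.trans_lt hEc) q hq hqc
    refine ⟨k * g, M.G.mul_mem hk hg, fun x hx => ?_, fun v hv e he hev => ?_⟩
    · rw [Equiv.Perm.mul_apply, h5 x hx, h7 x hx]
    · rw [Equiv.Perm.mul_apply]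
      exact h8 v hv _ ⟨e, he, rfl⟩ (h6 v hv e he hev).1

/-- **Joint reflection** of the closed traces, from the scaffolds. -/
theorem jr_step {n : ℕ} : JrStep M τ S' ι n := by
  intro hM hls h2 hJR hSH A s hs hA hR N hN hsc
  have hτ := h2.ap
  have key : Cl τ fun H => ∀ d < τ, ∀ E ⊆ iun A s.ssubsets, #E ≤ d → ∀ q ⊆ N ∩ H, #q ≤ d →
      ∃ g ∈ M.G, (∀ x ∈ q, g x = x) ∧ ∀ v ∈ s.ssubsets, ∀ e ∈ E, e ∈ A v → g e ∈ A v ∩ H := by
    refine Cl.all_lt hτ fun d hd => ?_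
    obtain ⟨m, P, r, Q, hS, hD⟩ := hsc d hd
    have h3 := exists_peels hM hls h2 hJR hSH hs m hS.blk hS.ne hS.sub
    have h4 : Cl τ fun H => ∀ E ⊆ iun (P m) s.ssubsets, #E ≤ d → ∀ q ⊆ H, #q ≤ d →
      ∃ g ∈ M.G, (∀ x ∈ q, g x = x) ∧ ∀ v ∈ s.ssubsets, ∀ e ∈ E, e ∈ P m v →
        g e ∈ P m v ∩ H := hD
    refine (h3.and hτ h4).mono fun H _ hH E hE hEc q hq hqc => ?_
    have hle : ∀ i ≤ m, ∀ v ∈ s.ssubsets, A v ⊆ P i v := by
      intro i
      induction i with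
      | zero =>
        intro _ v hv
        rw [hS.zero v hv]
      | succ i ih =>
        intro hi v hv
        exact (ih (Nat.le_of_succ_le hi) v hv).trans ((hS.blk i hi).le hv)
    obtain ⟨g, hg, h5, h6⟩ := hH.2 E (by
      intro e he
      obtain ⟨v, hv, hev⟩ := hE he
      exact ⟨v, hv, hle m le_rfl v hv hev⟩) hEc q (hq.trans inter_subset_right) hqc
    have h7 : ∀ v ∈ s.ssubsets, ∀ e ∈ E, e ∈ A v → g e ∈ P m v ∩ H := fun v hv e he hev =>
      h6 v hv e he (hle m le_rfl v hv hev)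
    obtain ⟨k, hk, h8, h9⟩ := hH.1 (g '' E) (by
      rintro _ ⟨e, he, rfl⟩
      obtain ⟨v, hv, hev⟩ := hE he
      exact ⟨⟨v, hv, (h7 v hv e he hev).1⟩, (h7 v hv e he hev).2⟩)
      (mk_image_le.trans_lt (hEc.trans_lt hd)) q hq (hqc.trans_lt hd)
    refine ⟨k * g, M.G.mul_mem hk hg, fun x hx => ?_, fun v hv e he hev => ?_⟩
    · rw [Equiv.Perm.mul_apply, h5 x hx, h8 x hx]
    · rw [Equiv.Perm.mul_apply, ← hS.zero v hv]
      exact h9 v hv _ ⟨e, he, rfl⟩ (h7 v hv e he hev).1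
  refine key.mono fun H _ hH E hE hEc q hq hqc => ?_
  exact hH (max #E #q) (max_lt hEc hqc) E hE (le_max_left _ _) q hq (le_max_right _ _)

end Vale.Agent.P307.R2.H578
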