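import Vale.Agent.P307.R2.H578.JR2
import Vale.Agent.P307.R2.H578.JR3
import Vale.Agent.P307.R2.H287.PackPG
import Vale.Agent.P307.R2.H806.TwoPG

/-!
Joint reflection of the closed traces in the saturated members.
-/

set_option linter.unusedSectionVars false

universe u v

open FirstOrder Cardinal Set

namespace Vale.Agent.P307.R2.H578

open Vale.Agent.P307 Vale.Agent.P307.H304 Vale.Agent.P307.R2.H287 Vale.Agent.P307.R2.H1
  Vale.Agent.P307.R2.H806 Vale.Agent.P307.R2.H971 Vale.Agent.P307.R2.H541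
  Vale.Agent.P307.R2.H541.PG Vale.Agent.P307.R2.H533 Language.Structure Language.Substructure
open Vale.Agent.P307.R2.H68 (part part_mono Blk mk_blk mk_part_le Clo exists_finset_term_of_mem
  exists_shift_aut exists_closure_all)

open scoped Classical

variable {ι : Type v} {L : Language.{u, u}} {K : AEC L} {ℓ θ τ : Cardinal.{u}}
  {κf α : Cardinal.{u} → Cardinal.{u}} {C : Type u} [L.Structure C]

section

variable (h₀ : BasePt K ℓ κf α θ) (hK : K.IsLS ℓ)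
  (hunb : ∀ ν, ν < κf ν ∧ K.CategoricalIn (κf ν)) (hst : Stab K ℓ α (H287.thr κf))
  (hCm : K.mem C) (hs : Sat K θ C) (hCc : #C = Order.succ θ)

include h₀ hK hunb hst hCm hs hCc

/-- Two levels of saturated members. -/
theorem pg_twoLv (hτ : BasePt K ℓ κf α τ) (hτθ : τ < θ) :
    TwoLv (pg h₀ hK hunb hst hCm hs hCc) τ (Sm K τ C) where
  ap := aleph0_le_pt hτ hK
  lt := hτθ
  low := by
    intro Y hY
    obtain ⟨C', h1, h2, h3, h4⟩ := exists_low h₀ hK hunb hCm hCc hτ hτθ hY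
    exact ⟨(C' : Set C), pgLow hK hunb hst hτ h1 h2 h3, h4, rfl,
      pg_low h₀ hK hunb hst hCm hs hCc hτ hτθ h1 h2 h3, pg_calc hτ hK hunb hst _ h3 h2,
      fun N hN hND => tr_mem hK hunb hst hτ h1 h2 h3 hN hND⟩
  ec := by
    intro A hA
    obtain ⟨φ, h1, h2⟩ := exists_closure_all h₀ hK hunb hst hCm hs hCc hτ.pt.lt hτ.pow hτθ.le hA
    obtain ⟨ψ, h3, h4⟩ := exists_clo_pack h₀ hK hunb hst hCm hs hCc hτ hτθ hA (R := fun _ => A)
      fun _ => by
        obtain ⟨D, h5, -, h6⟩ := hA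
        exact ⟨D, h5, h6⟩
    have h5 : Cl τ fun H => (∀ d < τ, ∀ X ⊆ A, #X ≤ d → ∃ q₀ ⊆ A ∩ H, #q₀ < τ ∧ ∀ q ⊆ H,
        #q ≤ d → ∃ g ∈ autG L C, (∀ x ∈ q, g x = x) ∧ ∀ x ∈ X, g x ∈ q₀) :=
      ⟨φ, h1, fun H hH _ d hd => ((h2 H hH).2.2 d hd).1⟩
    have h6 : Cl τ fun H => A ∩ H ∈ Sm K τ C := ⟨ψ, h3, fun H hH hHc => (h4 H ⟨hH, hHc⟩).1⟩
    refine (h6.and (aleph0_le_pt hτ hK) h5).mono fun H _ hH => ⟨hH.1, fun E hE hEc q hq hqc => ?_⟩
    obtain ⟨q₀, h7, -, h8⟩ := hH.2 (max #E #q) (max_lt hEc hqc) E hE (le_max_left _ _)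
    obtain ⟨g, hg, h9, h10⟩ := h8 q hq (le_max_right _ _)
    exact ⟨g, hg, h9, fun e he => h7 (h10 e he)⟩

/-- **The shift of a standard family** into the closed sets. -/
theorem pg_shift {σ : Cardinal.{u}} (hσ : ℓ ≤ σ) (hστ : σ < τ) (hτθ : τ ≤ θ)
    (hpow : (2 : Cardinal.{u}) ^ σ ≤ τ) {St : Finset ι → Set C} {F : Finset (Finset ι)}
    (hSt : IsStd K ℓ σ τ C St F) : ShiftD (pg h₀ hK hunb hst hCm hs hCc) τ σ St F := by
  classical
  obtain ⟨t, Ω, _, _, E, e, S, Mk, hMk, hStS, hmk⟩ := hSt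
  have hσ0 : ℵ₀ ≤ σ := hK.1.trans hσ
  have hτ0 : ℵ₀ ≤ τ := hσ0.trans hστ.le
  have hσθ : σ < θ := hστ.trans_le hτθ
  -- supports
  have hsup : ∀ x : C, ∃ w : Finset (Ω ×ₗ Blk σ), e.symm x ∈ hull E (w : Set _) := by
    intro x
    have h1 : e.symm x ∈ hull E (univ : Set (Ω ×ₗ Blk σ)) := by
      change e.symm x ∈ closure (exLang L t.Λ) (E.c '' univ)
      rw [image_univ, E.top]
      trivial
    obtain ⟨w, s, -, hs⟩ := exists_finset_term_of_mem E h1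
    exact ⟨w, (mem_closure_image_iff E.c _ _).2 ⟨s, hs⟩⟩
  choose w hw using hsup
  let pr : Ω ×ₗ Blk σ → Ω := fun j => (ofLex j).1
  let G₀ : Set C → Set Ω := fun H => Mk ∪ ⋃ x ∈ H, pr '' (w x : Set _)
  let ψ : Set C → Set C := fun H => e '' (hull E (part (G₀ H)) : Set E.N)
  have hG₀ : ∀ s : Finset C, #(G₀ s) ≤ τ := by
    intro s
    have h1 : (⋃ x ∈ (s : Set C), pr '' (w x : Set (Ω ×ₗ Blk σ))).Finite := by
      refine Set.Finite.biUnion s.finite_toSet fun x _ => ?_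
      exact (w x).finite_toSet.image _
    exact (mk_union_le _ _).trans (add_le_of_le hτ0 hMk (h1.lt_aleph0.le.trans hτ0))
  have hsub : ∀ H : Set C, H ⊆ ψ H := by
    intro H x hx
    refine ⟨e.symm x, hull_mono E ?_ (hw x), e.apply_symm_apply x⟩
    intro j hj
    exact Or.inr (mem_biUnion hx ⟨j, hj, rfl⟩)
  have hclo : ∀ H : Set C, Clo (fun s => ψ (s : Set C)) H → H = ψ H := by
    intro H hH
    refine (hsub H).antisymm ?_
    rintro _ ⟨z, hz, rfl⟩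
    obtain ⟨v, s, hv, hs⟩ := exists_finset_term_of_mem E hz
    have h1 : ∀ j ∈ v, ∃ x : Option C, (∀ y ∈ x, y ∈ H) ∧
        (pr j ∈ Mk ∨ ∃ y ∈ x, pr j ∈ pr '' (w y : Set _)) := by
      intro j hj
      rcases hv j hj with h | h
      · exact ⟨none, by simp, Or.inl h⟩
      · obtain ⟨y, hy, hy'⟩ := mem_iUnion₂.1 h
        exact ⟨some y, fun z hz => by cases hz; exact hy, Or.inr ⟨y, rfl, hy'⟩⟩
    choose! f hf1 hf2 using h1
    let s' : Finset C := v.biUnion fun j => (f j).toFinset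
    have hs' : (s' : Set C) ⊆ H := by
      intro y hy
      obtain ⟨j, hj, hy⟩ := Finset.mem_biUnion.1 (Finset.mem_coe.1 hy)
      exact hf1 j hj y (Option.mem_toFinset.1 hy)
    refine hH s' hs' ⟨z, hull_mono E ?_ ((mem_closure_image_iff E.c _ _).2 ⟨s, hs⟩), rfl⟩
    intro j hj
    rcases hf2 j hj with h | ⟨y, hy, h⟩
    · exact Or.inl h
    · refine Or.inr (mem_biUnion (x := y) ?_ h)
      exact Finset.mem_coe.2 (Finset.mem_biUnion.2 ⟨j, hj, Option.mem_toFinset.2 hy⟩)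
  have hEc : θ ≤ #E.N := by
    rw [mk_congr e.toEquiv, hCc]
    exact Order.le_succ θ
  refine ⟨fun s => ψ s, fun s => ?_, fun H hH _ X hX hXc q hq hqc => ?_⟩
  · refine mk_image_le.trans ?_
    refine mk_hullL_le E (hσ.trans hστ.le) ?_
    exact mk_part_le hτ0 (hG₀ s) ((mk_blk hσ0).trans hpow)
  · have hHe := hclo H hH
    -- the coordinates
    let J : Type u := {p : C × Set Ω // p.1 ∈ X ∧ ∃ v ∈ F, p.2 = S v ∧ p.1 ∈ St v}
    have hJ : #J ≤ σ := by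
      have h1 : #{T : Set Ω // ∃ v ∈ F, T = S v} ≤ σ := by
        have h2 : {T : Set Ω | ∃ v ∈ F, T = S v}.Finite := by
          have h3 : {T : Set Ω | ∃ v ∈ F, T = S v} = S '' (F : Set (Finset ι)) := by
            ext T
            constructor
            · rintro ⟨v, hv, rfl⟩
              exact ⟨v, hv, rfl⟩
            · rintro ⟨v, hv, rfl⟩
              exact ⟨v, hv, rfl⟩
          rw [h3]
          exact F.finite_toSet.image S
        exact h2.lt_aleph0.le.trans hσ0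
      have h2 : #J ≤ #(X × {T : Set Ω // ∃ v ∈ F, T = S v}) := by
        refine mk_le_of_injective (f := fun p : J => ((⟨p.1.1, p.2.1⟩ : X),
          (⟨p.1.2, by
            obtain ⟨v, hv, h3, -⟩ := p.2.2
            exact ⟨v, hv, h3⟩⟩ : {T : Set Ω // ∃ v ∈ F, T = S v}))) ?_
        rintro ⟨⟨a, b⟩, h3⟩ ⟨⟨a', b'⟩, h4⟩ h5
        simp only [Prod.mk.injEq, Subtype.mk.injEq] at h5
        obtain ⟨rfl, rfl⟩ := h5
        rfl
      refine h2.trans ?_
      rw [mk_prod, lift_id, lift_id]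
      exact (mul_le_mul' hXc h1).trans (mul_eq_self hσ0).le
    have hgood : ∀ i : J, ∀ x ∈ i.1.2, ∃ g ∈ i.1.2, IsLeast {g | g ∈ G₀ H ∧ x ≤ g} g := by
      rintro ⟨⟨a, T⟩, h0⟩ x hx
      obtain ⟨v, hv, h3, -⟩ := h0.2
      change T = S v at h3
      change x ∈ T at hx
      change ∃ g ∈ T, _
      rw [h3] at hx ⊢
      obtain ⟨m, hm, hxm, hI⟩ := hmk v hv x hx
      have hne : {g | g ∈ G₀ H ∧ x ≤ g}.Nonempty := ⟨m, Or.inl hm, hxm⟩
      have hmin := wellFounded_lt.min_mem _ hne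
      refine ⟨wellFounded_lt.min _ hne, hI ⟨hmin.2, ?_⟩, hmin, fun y hy =>
        not_lt.1 (wellFounded_lt.not_lt_min _ hy)⟩
      exact not_lt.1 (wellFounded_lt.not_lt_min _ (show m ∈ {g | g ∈ G₀ H ∧ x ≤ g} from
        ⟨Or.inl hm, hxm⟩))
    have h1 : ∀ i : J, e.symm i.1.1 ∈ hull E (part i.1.2) := by
      rintro ⟨⟨a, T⟩, h0⟩
      obtain ⟨v, hv, h3, ha⟩ := h0.2
      change T = S v at h3
      change a ∈ St v at ha
      change e.symm a ∈ hull E (part T)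
      rw [hStS v hv] at ha
      obtain ⟨z, hz, rfl⟩ := ha
      rw [h3, e.symm_apply_apply]
      exact hz
    have h2 : ∀ x : q, e.symm x.1 ∈ hull E (part (G₀ H)) := by
      intro x
      have h2 := hq x.2
      rw [hHe] at h2
      obtain ⟨z, hz, hzx⟩ := h2
      rw [← hzx, e.symm_apply_apply]
      exact hz
    obtain ⟨g, hg, hg1, hg2⟩ := exists_shift_aut h₀ hK hunb hst hCm hs hCc hσ hσθ E hEc
      e.toEmbedding (AEC.Emb.of_equiv e E.mem) (G₀ H) hJ hqc (fun i : J => i.1.2)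
      hgood (fun x : q => e.symm x.1) h2 (fun i : J => e.symm i.1.1) h1
    refine ⟨g, hg, fun x hx => ?_, fun v hv x hx hxv => ?_⟩
    · have h3 := hg1 ⟨x, hx⟩
      change g (e (e.symm x)) = e (e.symm x) at h3
      rwa [e.apply_symm_apply] at h3
    · obtain ⟨z, hz, hz'⟩ := hg2 ⟨⟨x, S v⟩, hx, v, hv, rfl, hxv⟩
      change g (e (e.symm x)) = e z at hz'
      rw [e.apply_symm_apply] at hz'
      rw [hz']
      constructor
      · rw [hStS v hv]
        exact ⟨z, hull_mono E (part_mono inter_subset_left) hz, rfl⟩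
      · rw [hHe]
        exact ⟨z, hull_mono E (part_mono inter_subset_right) hz, rfl⟩

/-- **Joint reflection of the closed traces of a boundary**, from its scaffolds. -/
theorem pg_jr (hτ : BasePt K ℓ κf α τ) (hτθ : τ < θ) {n : ℕ}
    (hJR : ∀ j < n, JRk (pg h₀ hK hunb hst hCm hs hCc) τ ι j)
    (hSH : ∀ j < n, SHk (pg h₀ hK hunb hst hCm hs hCc) τ ι j) {A : Finset ι → Set C}
    {s : Finset ι} (hsn : s.card = n) (hA : IFam (pg h₀ hK hunb hst hCm hs hCc) A s.ssubsets)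
    (hR : IRef (pg h₀ hK hunb hst hCm hs hCc) A s.ssubsets) {N : Set C} (hN : ibd A s ⊆ N)
    (hsc : ∀ d < τ, ∃ σ < τ, d ≤ σ ∧ ℓ ≤ σ ∧ ∃ m P r Q,
      Scaf (pg h₀ hK hunb hst hCm hs hCc) A s.ssubsets N m P r Q ∧
        IsStd K ℓ σ τ C (P m) s.ssubsets) :
    JRp (pg h₀ hK hunb hst hCm hs hCc) τ A s.ssubsets N := by
  refine jr_step (pg_calc h₀ hK hunb hst hCm hs hCc) (pg_big h₀ hK hunb hst hCm hs hCc).ls
    (pg_twoLv h₀ hK hunb hst hCm hs hCc hτ hτθ) hJR hSH A s hsn hA hR N hN fun d hd => ?_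
  obtain ⟨σ, hστ, hdσ, hℓσ, m, P, r, Q, h1, h2⟩ := hsc d hd
  obtain ⟨φ, h3, h4⟩ := pg_shift h₀ hK hunb hst hCm hs hCc hℓσ hστ hτθ.le (hτ.pow σ hστ).le h2
  exact ⟨m, P, r, Q, h1, φ, h3, fun H hH hHc E hE hEc q hq hqc =>
    h4 H hH hHc E hE (hEc.trans hdσ) q hq (hqc.trans hdσ)⟩

/-- Joint reflection in dimension `n`. -/
theorem pg_jrk (hτ : BasePt K ℓ κf α τ) (hτθ : τ < θ) {n : ℕ}
    (hJR : ∀ j < n, JRk (pg h₀ hK hunb hst hCm hs hCc) τ ι j)
    (hSH : ∀ j < n, SHk (pg h₀ hK hunb hst hCm hs hCc) τ ι j)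
    (hsc : ∀ (A : Finset ι → Set C) (s : Finset ι), s.card = n →
      IFam (pg h₀ hK hunb hst hCm hs hCc) A s.ssubsets →
      IRef (pg h₀ hK hunb hst hCm hs hCc) A s.ssubsets →
      ∀ N ∈ (pg h₀ hK hunb hst hCm hs hCc).S, ibd A s ⊆ N → ∀ d < τ,
        ∃ σ < τ, d ≤ σ ∧ ℓ ≤ σ ∧ ∃ m P r Q,
          Scaf (pg h₀ hK hunb hst hCm hs hCc) A s.ssubsets N m P r Q ∧
            IsStd K ℓ σ τ C (P m) s.ssubsets) :
    JRk (pg h₀ hK hunb hst hCm hs hCc) τ ι n :=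
  fun A s hsn hA hR N hNS hN => pg_jr h₀ hK hunb hst hCm hs hCc hτ hτθ hJR hSH hsn hA hR hN
    (hsc A s hsn hA hR N hNS hN)

end

end Vale.Agent.P307.R2.H578
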