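import Vale.Agent.P307.R2.H578.JR3
import Vale.Agent.P307.R2.H844.Peel2
import Vale.Agent.P307.R2.H732.TmL

/-!
Joint reflection of the closed traces of a boundary over the closed trace of a set `N`: from a
scaffold whose last family is mapped onto a standard family by a map which is elementary on small
pieces, and from the traces of atomic models in smaller dimensions.
-/

universe u v

open Set Cardinal Function

namespace Vale.Agent.P307.R2.H578

open Vale.Agent.P307.R2.H541 Vale.Agent.P307.R2.H541.PG Vale.Agent.P307.R2.H533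
open Vale.Agent.P307.R2.H68 (Clo exists_clo)
open Vale.Agent.P307.R2.H844 (Cl2 KeyC2 key2C)

open scoped Classical

variable {ι : Type v} {C : Type u} {M : PG C} {τ : Cardinal.{u}} {S' : Set (Set C)}

/-- The pieces of size at most `d` of the family `St` move into the closed traces, over the pieces
of the closed traces of `Y`. -/
def ShiftN (M : PG C) (τ d : Cardinal.{u}) (St : Finset ι → Set C) (F : Finset (Finset ι))
    (Y : Set C) : Prop :=
  Cl τ fun H => ∀ E ⊆ iun St F, #E ≤ d → ∀ q ⊆ Y ∩ H, #q ≤ d →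
    ∃ g ∈ M.G, (∀ x ∈ q, g x = x) ∧ ∀ v ∈ F, ∀ e ∈ E, e ∈ St v → g e ∈ St v ∩ H

theorem ShiftD.shiftN {d : Cardinal.{u}} {St : Finset ι → Set C} {F : Finset (Finset ι)}
    (h : ShiftD M τ d St F) (Y : Set C) : ShiftN M τ d St F Y := by
  obtain ⟨φ, h1, h2⟩ := h
  exact ⟨φ, h1, fun H hH hHc E hE hEc q hq hqc => h2 H hH hHc E hE hEc q
    (hq.trans inter_subset_right) hqc⟩

theorem ShiftN.mono {d : Cardinal.{u}} {St : Finset ι → Set C} {F : Finset (Finset ι)}
    {Y Y' : Set C} (h : ShiftN M τ d St F Y) (hY : Y' ⊆ Y) : ShiftN M τ d St F Y' :=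
  Cl.mono h fun H _ hH E hE hEc q hq hqc => hH E hE hEc q
    (hq.trans (inter_subset_inter_left H hY)) hqc

/-- **Transfer of the shift.** The family `B` is mapped onto the family `T` by a map `f` which is
elementary on the small pieces of a set `Y` which contains the family. -/
theorem shiftN_trans (hτ : ℵ₀ ≤ τ) {d κ : Cardinal.{u}} (hκ : ℵ₀ ≤ κ) (hdκ : d ≤ κ)
    {B T : Finset ι → Set C} {F : Finset (Finset ι)} {f : C → C} {Y : Set C}
    (h : ShiftD M τ d T F) (hY : iun B F ⊆ Y) (hf : M.LEL κ f Y)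
    (himg : ∀ v ∈ F, f '' B v = T v) : ShiftN M τ d B F Y := by
  obtain ⟨φ, h1, h2⟩ := h
  have hinj : InjOn f Y := by
    intro x hx y hy hxy
    obtain ⟨g, -, hg⟩ := hf {x, y} (by
      rintro z (rfl | rfl)
      · exact hx
      · exact hy) (((Set.toFinite {x, y}).lt_aleph0.le).trans hκ)
    have h3 := hg x (Or.inl rfl)
    have h4 := hg y (Or.inr rfl)
    rw [hxy, ← h4] at h3
    exact g.injective h3
  have hfin : ∀ s : Finset C, (f '' (s : Set C) ∪ {y | y ∈ Y ∧ f y ∈ s} : Set C).Finite := by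
    intro s
    refine (s.finite_toSet.image f).union (Set.Finite.of_finite_image
      (s.finite_toSet.subset ?_) fun x hx y hy hxy => hinj hx.1 hy.1 hxy)
    rintro _ ⟨y, hy, rfl⟩
    exact hy.2
  refine ⟨fun s => φ s ∪ (f '' (s : Set C) ∪ {y | y ∈ Y ∧ f y ∈ s}), fun s =>
    (mk_union_le _ _).trans (add_le_of_le hτ (h1 s) ((hfin s).lt_aleph0.le.trans hτ)),
    fun H hH hHc E hE hEc q hq hqc => ?_⟩
  have hHφ : Clo φ H := hH.mono fun s => subset_union_left
  have hHf : ∀ x ∈ H, f x ∈ H := by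
    intro x hx
    refine hH {x} (by simpa using hx) (Or.inr (Or.inl ⟨x, by simp, rfl⟩))
  have hHf' : ∀ y ∈ Y, f y ∈ H → y ∈ H := by
    intro y hy hfy
    exact hH {f y} (by simpa using hfy) (Or.inr (Or.inr ⟨hy, by simp⟩))
  obtain ⟨g', hg', h3, h4⟩ := h2 H hHφ hHc (f '' E) (by
    rintro _ ⟨e, he, rfl⟩
    obtain ⟨v, hv, hev⟩ := hE he
    refine ⟨v, hv, ?_⟩
    rw [← himg v hv]
    exact mem_image_of_mem f hev) (mk_image_le.trans hEc) (f '' q) (by
    rintro _ ⟨x, hx, rfl⟩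
    exact hHf x (hq hx).2) (mk_image_le.trans hqc)
  -- the preimages
  have hex : ∀ e ∈ E, ∃ e', e' ∈ Y ∧ f e' = g' (f e) := by
    intro e he
    obtain ⟨v, hv, hev⟩ := hE he
    have h5 := (h4 v hv (f e) (mem_image_of_mem f he) (by
      rw [← himg v hv]
      exact mem_image_of_mem f hev)).1
    rw [← himg v hv] at h5
    obtain ⟨e', h6, h7⟩ := h5
    exact ⟨e', hY ⟨v, hv, h6⟩, h7⟩
  choose! p hpY hp using hex
  have hpv : ∀ v ∈ F, ∀ e ∈ E, e ∈ B v → p e ∈ B v ∩ H := by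
    intro v hv e he hev
    have h5 := h4 v hv (f e) (mem_image_of_mem f he) (by
      rw [← himg v hv]
      exact mem_image_of_mem f hev)
    have h6 := h5.1
    rw [← himg v hv] at h6
    obtain ⟨e', h7, h8⟩ := h6
    have h9 : e' = p e := hinj (hY ⟨v, hv, h7⟩) (hpY e he) (by rw [h8, hp e he])
    refine ⟨h9 ▸ h7, hHf' _ (hpY e he) ?_⟩
    rw [hp e he]
    exact h5.2
  have hqY : q ⊆ Y := fun x hx => (hq hx).1
  have hEY : E ⊆ Y := hE.trans hY
  obtain ⟨g₁, hg₁, h5⟩ := hf (E ∪ q) (union_subset hEY hqY)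
    ((mk_union_le _ _).trans (add_le_of_le hκ (hEc.trans hdκ) (hqc.trans hdκ)))
  obtain ⟨g₂, hg₂, h6⟩ := hf (p '' E ∪ q) (union_subset (by
    rintro _ ⟨e, he, rfl⟩
    exact hpY e he) hqY) ((mk_union_le _ _).trans (add_le_of_le hκ
      (mk_image_le.trans (hEc.trans hdκ)) (hqc.trans hdκ)))
  refine ⟨g₂⁻¹ * (g' * g₁), M.G.mul_mem (M.G.inv_mem hg₂) (M.G.mul_mem hg' hg₁),
    fun x hx => ?_, fun v hv e he hev => ?_⟩
  · rw [Equiv.Perm.mul_apply, Equiv.Perm.mul_apply, h5 x (Or.inr hx),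
      h3 _ (mem_image_of_mem f hx), ← h6 x (Or.inr hx), inv_ap]
  · rw [Equiv.Perm.mul_apply, Equiv.Perm.mul_apply, h5 e (Or.inl he), ← hp e he,
      ← h6 _ (Or.inl (mem_image_of_mem p he)), inv_ap]
    exact hpv v hv e he hev

/-- The traces of the atomic models over the boundaries of the extensions of the systems by one
direction, of dimension `j`. -/
def SHA (M : PG C) (τ : Cardinal.{u}) (ι : Type v) (j : ℕ) : Prop :=
  ∀ (A : Finset ι → Set C) (S : Finset ι) (c : ι), Ext1 M A S c → (insert c S).card = j →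
    ∀ N, M.Atomic N (ibd A (insert c S)) → Cl τ fun H => ∀ E ⊆ N ∩ H, #E < τ →
      ∃ B ⊆ ibd A (insert c S) ∩ H, #B < τ ∧ M.Isol B (ibd A (insert c S)) E

/-- The hypotheses of the peeling of one block. -/
theorem exists_cl2 (hM : M.Calc) (h2 : TwoLv M τ S') {n : ℕ} (hSH : ∀ j < n, SHA M τ ι j)
    {s : Finset ι} (hs : s.card = n) {P P' : Finset ι → Set C} {r : Finset ι} {Q : Set C}
    (hB : Blk M P P' s.ssubsets r Q) (hr : r.Nonempty) :
    Cl τ fun H => Cl2 M τ P P' s.ssubsets r Q H := by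
  have hτ := h2.ap
  have hcl1 : Cl τ fun H => ∀ v ∈ s.ssubsets, ∀ E ⊆ P v, #E < τ → ∀ q ⊆ H, #q < τ →
      ∃ g ∈ M.G, (∀ x ∈ q, g x = x) ∧ ∀ e ∈ E, g e ∈ P v ∩ H := by
    refine Cl.finset hτ _ fun v hv => ?_
    exact Cl.mono (h2.ec _ (hB.fam.mem v hv)) fun H _ h => h.2
  have hcl2 : Cl τ fun H => ∀ w ∈ s.ssubsets, r ⊂ w → ∀ E ⊆ P' w ∩ H, #E < τ →
      ∃ b ⊆ nbd P P' r w ∩ H, #b < τ ∧ M.Isol b (nbd P P' r w) E := by
    refine Cl.finset hτ _ fun w hw => ?_
    by_cases hrw : r ⊂ w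
    · obtain ⟨c, hc⟩ := hr
      have hsys := hB.fam.isys hB.ref hw
      have hE : Ext1 M (lnk P P' r c) (w \ r) c := ext1_lnk hc hrw.1 hsys hB.memB hB.subB
        (hB.ind.mono Subset.rfl (hB.sub_face hw)) fun u hu1 hu2 =>
          hB.atomic u (hB.fam.down.2 _ hw u hu2.1) hu1
      have hd : Disjoint (w \ r) r := Finset.sdiff_disjoint
      have hcu : c ∉ w \ r := fun h => Finset.disjoint_left.1 hd h hc
      have hun : r ∪ w \ r = w := Finset.union_sdiff_of_subset hrw.1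
      have hk : (insert c (w \ r)).card < n := by
        rw [Finset.card_insert_of_notMem hcu, Finset.card_sdiff_of_subset hrw.1, ← hs]
        have h3 := Finset.card_lt_card (Finset.mem_ssubsets.1 hw)
        have h4 : 0 < r.card := Finset.card_pos.2 ⟨c, hc⟩
        have h5 := Finset.card_lt_card hrw
        omega
      have hibd : ibd (lnk P P' r c) (insert c (w \ r)) = nbd P P' r w := by
        rw [ibd_lnk hc hd fun u hu => hsys.mono (by rw [hun])
          (Finset.union_subset_union_right hu), hun]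
      have h3 := hSH _ hk (lnk P P' r c) (w \ r) c hE rfl (P' w) (by
        rw [hibd]
        exact hB.atomic w hw hrw)
      rw [hibd] at h3
      exact Cl.mono h3 fun H _ h _ => h
    · exact Cl.of_forall fun H _ h => absurd h hrw
  refine (hcl1.and hτ hcl2).mono fun H _ hH => ⟨fun E hE hEc q hq hqc => hH.1 r hB.mem_r E hE hEc q
    (hq.trans inter_subset_right) hqc, fun w hw _ q hq hqc E hEc => ?_, hH.2⟩
  obtain ⟨g, hg, h3, h4⟩ := M.sat (hB.fam.mem w hw) (fun x hx => (hq hx).1)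
    (hqc.trans h2.lt) (hEc.trans h2.lt)
  obtain ⟨k, hk, h5, h6⟩ := hH.1 w hw (g '' E) (by
    rintro _ ⟨e, he, rfl⟩
    exact h4 e he) (mk_image_le.trans_lt hEc) q (hq.trans inter_subset_right) hqc
  refine ⟨k * g, M.G.mul_mem hk hg, fun x hx => ?_, fun e he => h6 _ ⟨e, he, rfl⟩⟩
  rw [Equiv.Perm.mul_apply, h3 x hx, h5 x hx]

/-- The scaffold is peeled off on the closed traces. -/
theorem exists_peelN (hM : M.Calc) (h2 : TwoLv M τ S') {n : ℕ}
    (hSH : ∀ j < n, SHA M τ ι j) {s : Finset ι} (hs : s.card = n) {P : ℕ → Finset ι → Set C}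
    {r : ℕ → Finset ι} {Q : ℕ → Set C} {N : Set C} (m : ℕ)
    (hB : ∀ i < m, Blk M (P i) (P (i + 1)) s.ssubsets (r i) (Q i))
    (hr : ∀ i < m, (r i).Nonempty) (hN : ∀ i < m, N ⊆ Q i) :
    Cl τ fun H => KeyC2 M τ (P 0) (P m) s.ssubsets N H := by
  induction m with
  | zero =>
    exact Cl.of_forall fun H _ E hE _ q _ _ => ⟨1, M.G.one_mem, fun _ _ => rfl,
      fun v _ e he hev => ⟨hev, (hE he).2⟩⟩
  | succ m ih =>
    have h3 := ih (fun i hi => hB i (hi.trans (Nat.lt_succ_self m)))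
      (fun i hi => hr i (hi.trans (Nat.lt_succ_self m)))
      (fun i hi => hN i (hi.trans (Nat.lt_succ_self m)))
    have h4 := exists_cl2 hM h2 hSH hs (hB m (Nat.lt_succ_self m)) (hr m (Nat.lt_succ_self m))
    refine (h3.and h2.ap h4).mono fun H _ hH E hE hEc q hq hqc => ?_
    obtain ⟨g, hg, h5, h6⟩ := key2C hM h2.ap h2.lt.le (hB m (Nat.lt_succ_self m)) hH.2 E hE hEc q
      (hq.trans (inter_subset_inter_left H (hN m (Nat.lt_succ_self m)))) hqc
    obtain ⟨k, hk, h7, h8⟩ := hH.1 (g '' E) (by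
      rintro _ ⟨e, he, rfl⟩
      obtain ⟨v, hv, hev⟩ := (hE he).1
      exact ⟨⟨v, hv, (h6 v hv e he hev).1⟩, (h6 v hv e he hev).2⟩) (mk_image_le.trans_lt hEc)
      q hq hqc
    refine ⟨k * g, M.G.mul_mem hk hg, fun x hx => ?_, fun v hv e he hev => ?_⟩
    · rw [Equiv.Perm.mul_apply, h5 x hx, h7 x hx]
    · rw [Equiv.Perm.mul_apply]
      exact h8 v hv _ ⟨e, he, rfl⟩ (h6 v hv e he hev).1

/-- **Joint reflection** of the closed traces over the closed traces of `N`, from the scaffolds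
over `N`. -/
theorem jr_stepN (hM : M.Calc) (h2 : TwoLv M τ S') {n : ℕ} (hSH : ∀ j < n, SHA M τ ι j)
    {A : Finset ι → Set C} {s : Finset ι} (hs : s.card = n) {N : Set C}
    (hsc : ∀ d < τ, ∃ m P r Q, Scaf M A s.ssubsets N m P r Q ∧
      ShiftN M τ d (P m) s.ssubsets N) : JRp M τ A s.ssubsets N := by
  have hτ := h2.ap
  have key : Cl τ fun H => ∀ d < τ, ∀ E ⊆ iun A s.ssubsets, #E ≤ d → ∀ q ⊆ N ∩ H, #q ≤ d →
      ∃ g ∈ M.G, (∀ x ∈ q, g x = x) ∧ ∀ v ∈ s.ssubsets, ∀ e ∈ E, e ∈ A v → g e ∈ A v ∩ H := by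
    refine Cl.all_lt hτ fun d hd => ?_
    obtain ⟨m, P, r, Q, hS, hD⟩ := hsc d hd
    have h3 := exists_peelN hM h2 hSH hs m hS.blk hS.ne hS.sub
    refine (h3.and hτ hD).mono fun H _ hH E hE hEc q hq hqc => ?_
    have hle : ∀ i ≤ m, ∀ v ∈ s.ssubsets, A v ⊆ P i v := by
      intro i
      induction i with
      | zero =>
        intro _ v hv
        rw [hS.zero v hv]
      | succ i ih =>
        intro hi v hv
        exact (ih (Nat.le_of_succ_le hi) v hv).trans ((hS.blk i hi).le hv)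
    obtain ⟨g, hg, h5, h6⟩ := hH.2 E (by
      intro e he
      obtain ⟨v, hv, hev⟩ := hE he
      exact ⟨v, hv, hle m le_rfl v hv hev⟩) hEc q hq hqc
    have h7 : ∀ v ∈ s.ssubsets, ∀ e ∈ E, e ∈ A v → g e ∈ P m v ∩ H := fun v hv e he hev =>
      h6 v hv e he (hle m le_rfl v hv hev)
    obtain ⟨k, hk, h8, h9⟩ := hH.1 (g '' E) (by
      rintro _ ⟨e, he, rfl⟩
      obtain ⟨v, hv, hev⟩ := hE he
      exact ⟨⟨v, hv, (h7 v hv e he hev).1⟩, (h7 v hv e he hev).2⟩)
      (mk_image_le.trans_lt (hEc.trans_lt hd)) q hq (hqc.trans_lt hd)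
    refine ⟨k * g, M.G.mul_mem hk hg, fun x hx => ?_, fun v hv e he hev => ?_⟩
    · rw [Equiv.Perm.mul_apply, h5 x hx, h8 x hx]
    · rw [Equiv.Perm.mul_apply, ← hS.zero v hv]
      exact h9 v hv _ ⟨e, he, rfl⟩ (h7 v hv e he hev).1
  refine key.mono fun H _ hH E hE hEc q hq hqc => ?_
  exact hH (max #E #q) (max_lt hEc hqc) E hE (le_max_left _ _) q hq (le_max_right _ _)

/-- **The traces of atomic models**, from the joint reflection over them and from tiny isolating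
sets. -/
theorem sha_of_jr (h2 : TwoLv M τ S') (hno : H296.NoOrd M.G τ) {A : Finset ι → Set C}
    {s : Finset ι} {N : Set C} (hN : M.Atomic N (ibd A s)) (hJ : JRp M τ A s.ssubsets N)
    (htiny : ∀ E ⊆ N, #E < τ → ∃ B ⊆ ibd A s, #B < τ ∧ M.Isol B (ibd A s) E) :
    Cl τ fun H => ∀ E ⊆ N ∩ H, #E < τ →
      ∃ B ⊆ ibd A s ∩ H, #B < τ ∧ M.Isol B (ibd A s) E := by
  have h3 : Cl τ fun H => M.JR τ A s.ssubsets H (N ∩ H) := hJ
  refine (h3.and h2.ap (h2.ec N hN.mem)).mono fun H _ hH E hE hEc => ?_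
  refine exists_isol_tr (H := H) h2.ap h2.lt.le hno hN.sub (fun q hq hqc B hB hBc => ?_)
    (fun q hq hqc E hEc => ?_) (fun E hE hEc => htiny E (hE.trans inter_subset_left) hEc) E hE hEc
  · obtain ⟨k, hk, h4, h5⟩ := hH.1 B (by rwa [iun_ssubsets]) hBc q hq hqc
    refine ⟨k, hk, h4, fun b hb => ?_⟩
    obtain ⟨v, hv, hbv⟩ := hB hb
    have h6 := h5 v (Finset.mem_ssubsets.2 hv) b hb hbv
    exact ⟨⟨v, hv, h6.1⟩, h6.2⟩
  · obtain ⟨g, hg, h4, h5⟩ := M.sat hN.mem (fun x hx => (hq hx).1) (hqc.trans h2.lt)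
      (hEc.trans h2.lt)
    obtain ⟨k, hk, h6, h7⟩ := hH.2.2 (g '' E) (by
      rintro _ ⟨e, he, rfl⟩
      exact h5 e he) (mk_image_le.trans_lt hEc) q (hq.trans inter_subset_right) hqc
    refine ⟨k * g, M.G.mul_mem hk hg, fun x hx => ?_, fun e he => h7 _ ⟨e, he, rfl⟩⟩
    rw [Equiv.Perm.mul_apply, h4 x hx, h6 x hx]

end Vale.Agent.P307.R2.H578
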