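import Vale.Agent.P307.R2.H533.EnlEx
import Vale.Agent.P307.R2.H533.UArb
import Vale.Agent.P307.R2.H301.Din.Top
import Vale.Agent.P307.R2.H806.TwoTr

/-!
Joint reflection of the closed traces of an arbitrary boundary, from a scaffold: the faces are
enlarged one after the other until the family is standard; the standard family is shifted into the
closed set in one chart, and the enlargements are peeled off at the lower level.
-/

universe u v

open Set Cardinal Function

namespace Vale.Agent.P307.R2.H578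

open Vale.Agent.P307.R2.H541 Vale.Agent.P307.R2.H541.PG Vale.Agent.P307.R2.H533
open Vale.Agent.P307.R2.H68 (Clo exists_clo)
open Vale.Agent.P307.R2.H301 (TrN)

open scoped Classical

variable {ι : Type v} {C : Type u}

/-- Joint reflection of the closed traces of a family, over the closed traces of `N`. -/
def JRp (M : PG C) (τ : Cardinal.{u}) (A : Finset ι → Set C) (F : Finset (Finset ι))
    (N : Set C) : Prop :=
  ∃ φ : Finset C → Set C, (∀ s, #(φ s) ≤ τ) ∧ ∀ H, Clo φ H → #H ≤ τ → M.JR τ A F H (N ∩ H)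

/-- Joint reflection for all the boundaries of dimension `k`. -/
def JRk (M : PG C) (τ : Cardinal.{u}) (ι : Type v) (k : ℕ) : Prop :=
  ∀ (A : Finset ι → Set C) (s : Finset ι), s.card = k → IFam M A s.ssubsets →
    IRef M A s.ssubsets → ∀ N ∈ M.S, ibd A s ⊆ N → JRp M τ A s.ssubsets N

/-- Shrinking of isolating sets for all the boundaries of dimension `k`. -/
def SHk (M : PG C) (τ : Cardinal.{u}) (ι : Type v) (k : ℕ) : Prop :=
  ∀ (A : Finset ι → Set C) (s : Finset ι), s.card = k → IFam M A s.ssubsets →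
    IRef M A s.ssubsets → ∀ N ∈ M.S, ibd A s ⊆ N → ∃ ψ, TrN M τ (ibd A s) N ψ

/-- The faces of `A` are enlarged one after the other, freely from `N`; the last family is `P m`. -/
structure Scaf (M : PG C) (A : Finset ι → Set C) (F : Finset (Finset ι)) (N : Set C) (m : ℕ)
    (P : ℕ → Finset ι → Set C) (r : ℕ → Finset ι) (Q : ℕ → Set C) : Prop where
  zero : ∀ v ∈ F, P 0 v = A v
  blk : ∀ i < m, Blk M (P i) (P (i + 1)) F (r i) (Q i)
  ne : ∀ i < m, (r i).Nonempty
  sub : ∀ i < m, N ⊆ Q i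

/-- The pieces of size at most `d` of the family `St` move into the closed traces. -/
def ShiftD (M : PG C) (τ d : Cardinal.{u}) (St : Finset ι → Set C) (F : Finset (Finset ι)) :
    Prop :=
  ∃ φ : Finset C → Set C, (∀ s, #(φ s) ≤ τ) ∧ ∀ H, Clo φ H → #H ≤ τ →
    ∀ E ⊆ iun St F, #E ≤ d → ∀ q ⊆ H, #q ≤ d →
      ∃ g ∈ M.G, (∀ x ∈ q, g x = x) ∧ ∀ v ∈ F, ∀ e ∈ E, e ∈ St v → g e ∈ St v ∩ H

/-- Two levels: the closed traces of the models are models of a smaller geometry, and the models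
are reflected into their closed traces. -/
structure TwoLv (M : PG C) (τ : Cardinal.{u}) (S' : Set (Set C)) : Prop where
  ap : ℵ₀ ≤ τ
  lt : τ < M.χ
  low : ∀ Y : Set C, #Y ≤ τ → ∃ (D : Set C) (M' : PG D), Y ⊆ D ∧ M'.χ = τ ∧ M.Low D M' ∧
    M'.Calc ∧ ∀ N ∈ S', N ⊆ D → tr D N ∈ M'.S
  ec : ∀ A ∈ M.S, ∃ φ : Finset C → Set C, (∀ s, #(φ s) ≤ τ) ∧ ∀ H, Clo φ H → #H ≤ τ →
    A ∩ H ∈ S' ∧ ∀ E ⊆ A, #E < τ → ∀ q ⊆ H, #q < τ →
      ∃ g ∈ M.G, (∀ x ∈ q, g x = x) ∧ ∀ e ∈ E, g e ∈ A ∩ H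

/-- The statement of the row: joint reflection in dimension `n` from the smaller dimensions and
one scaffold for every size below `τ`. -/
def JrStep (M : PG C) (τ : Cardinal.{u}) (S' : Set (Set C)) (ι : Type v) (n : ℕ) : Prop :=
  M.Calc → (∀ X : Set C, #X ≤ M.χ → ∃ N ∈ M.S, X ⊆ N) → TwoLv M τ S' →
  (∀ j < n, JRk M τ ι j) → (∀ j < n, SHk M τ ι j) →
  ∀ (A : Finset ι → Set C) (s : Finset ι), s.card = n → IFam M A s.ssubsets →
    IRef M A s.ssubsets → ∀ N, ibd A s ⊆ N →
    (∀ d < τ, ∃ m P r Q, Scaf M A s.ssubsets N m P r Q ∧ ShiftD M τ d (P m) s.ssubsets) →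
      JRp M τ A s.ssubsets N

end Vale.Agent.P307.R2.H578
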