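import Vale.Agent.P307.R2.H578.JR1
import Vale.Agent.P307.R2.H68.AllD

/-!
Standard families in a chart of the saturated member, and the shift of their small pieces into the
closed sets.
-/

set_option linter.unusedSectionVars false

universe u v

open FirstOrder Cardinal Set

namespace Vale.Agent.P307.R2.H578

open Vale.Agent.P307 Vale.Agent.P307.H304 Vale.Agent.P307.R2.H287 Vale.Agent.P307.R2.H1
  Vale.Agent.P307.R2.H806 Vale.Agent.P307.R2.H971 Vale.Agent.P307.R2.H541
  Language.Structure Language.Substructure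
open Vale.Agent.P307.R2.H68 (part Blk exists_finset_term_of_mem)
open Vale.Agent.P307.R2.H533 (iun)

variable {ι : Type v} {L : Language.{u, u}} {K : AEC L} {ℓ θ : Cardinal.{u}}
  {κf α : Cardinal.{u} → Cardinal.{u}} {C : Type u} [L.Structure C]

/-- `St` is a standard family: in one chart of the whole member, over a well order `Ω` with blocks
of size `σ`, the faces are the hulls of sets of blocks; `Mk` is a set of at most `τ` marks, every
point of a face is below a mark, through points of the face. -/
def IsStd (K : AEC L) (ℓ σ τ : Cardinal.{u}) (C : Type u) [L.Structure C]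
    (St : Finset ι → Set C) (F : Finset (Finset ι)) : Prop :=
  ∃ (t : Tpl K ℓ) (Ω : Type u) (_ : LinearOrder Ω) (_ : WellFoundedLT Ω)
    (E : EM t (Ω ×ₗ Blk σ)) (e : E.N ≃[L] C) (S : Finset ι → Set Ω) (Mk : Set Ω),
    #Mk ≤ τ ∧ (∀ v ∈ F, St v = e '' (hull E (part (S v)) : Set E.N)) ∧
      ∀ v ∈ F, ∀ x ∈ S v, ∃ m ∈ Mk, x ≤ m ∧ Icc x m ⊆ S v

end Vale.Agent.P307.R2.H578
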