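import Vale.Agent.P307.R2.H578.Min3
import Vale.Agent.P307.R2.H718.GeoFinal

/-!
The minimal type of the final assembly, and the question from the existence of atomic models over
the boundaries of independent systems only.
-/

universe u

open FirstOrder Cardinal Set Function Language

namespace Vale.Agent.P307.R2.H578

open R2.H427 (HasGeo)
open Vale.Agent.P307 Vale.Agent.P307.H304 R2.H541 R2.H541.PG R2.H287 R2.H1 R2.H971 R2.H718

/-- A minimal set in the sense of `PG.Min` is a minimal type in the sense of `H718.Mini`. -/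
theorem mini_of_min {C : Type u} {M : PG C} {p Q : Set C} (h : M.Min p Q) : Mini M p Q where
  small := h.small
  inv := h.inv
  same := fun hV hpV _ hx hxV _ hy hyV D hD hDc => h.same hV hpV hx hxV hy hyV D hD hDc
  unb := fun hV _ => by
    obtain ⟨x, hx, h1⟩ := h.big _ (M.S_card hV).le
    exact ⟨x, hx, h1⟩

/-- **A minimal type exists** in the saturated member of size `θ⁺`, for suitable `θ`. -/
theorem exists_mini {L : Language.{u, u}} {K : AEC L} {ℓ : Cardinal.{u}}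
    {κf α : Cardinal.{u} → Cardinal.{u}} :
    ∃ g : Cardinal.{u} → Cardinal.{u}, ∀ θ, ℓ < θ → (∀ ρ < θ, g ρ < θ) →
      ∀ (h₀ : BasePt K ℓ κf α θ) (hK : K.IsLS ℓ) (hunb : ∀ ν, ν < κf ν ∧ K.CategoricalIn (κf ν))
        (hst : Stab K ℓ α (H287.thr κf)) (C : Type u) [L.Structure C] (hCm : K.mem C)
        (hs : Sat K θ C) (hCc : #C = Order.succ θ),
          ∃ p Q, Mini (pg h₀ hK hunb hst hCm hs hCc) p Q := by
  by_cases hb : ∃ θ₀, BasePt K ℓ κf α θ₀
  · obtain ⟨θ₀, hθ₀⟩ := hb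
    refine ⟨fun _ => θ₀, fun θ hθ hg h₀ hK hunb hst C _ hCm hs hCc => ?_⟩
    have h1 : θ₀ < θ := hg 0 (lt_of_le_of_lt zero_le hθ)
    obtain ⟨P, Q, -, -, h2⟩ := exists_min hθ₀ h1 h₀ hK hunb hst hCm hs hCc
    exact ⟨P, Q, mini_of_min h2⟩
  · exact ⟨fun _ => 0, fun θ _ _ h₀ => absurd ⟨θ, h₀⟩ hb⟩

/-- **The question** from the existence of atomic models over the boundaries of independent
systems in the saturated members of size `θ⁺` for suitable `θ`. -/
theorem q1_of_di (H : ∀ (L : Language.{u, u}) (K : AEC L) (ℓ : Cardinal.{u})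
      (κf α : Cardinal.{u} → Cardinal.{u}), K.IsLS ℓ →
      (∀ ν, ν < κf ν ∧ K.CategoricalIn (κf ν)) → Stab K ℓ α (H287.thr κf) →
        ∃ g : Cardinal.{u} → Cardinal.{u}, ∀ θ, ℓ < θ → θ.ord.cof = ℵ₀ →
          (∀ ρ < θ, gB κf α ρ < θ) → (∀ ρ < θ, g ρ < θ) →
            ∀ (h₀ : BasePt K ℓ κf α θ) (hK : K.IsLS ℓ)
              (hunb : ∀ ν, ν < κf ν ∧ K.CategoricalIn (κf ν))
              (hst : Stab K ℓ α (H287.thr κf)) (C : Type u) [L.Structure C] (hCm : K.mem C)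
              (hs : Sat K θ C) (hCc : #C = Order.succ θ), (pg h₀ hK hunb hst hCm hs hCc).DI)
    (l : Cardinal.{u}) :
    ∃ μ : Cardinal.{u}, l ≤ μ ∧ ∀ (L : Language.{u, u}) (K : AEC L), K.LS ≤ l →
      ∀ κ, μ ≤ κ → K.CategoricalIn κ → ∀ κ', μ ≤ κ' → K.CategoricalIn κ' := by
  refine q1_of_inputs (fun L K ℓ κf α hK hunb hst => ?_) l
  obtain ⟨g₁, h1⟩ := H L K ℓ κf α hK hunb hst
  obtain ⟨g₂, h2⟩ := exists_mini (K := K) (ℓ := ℓ) (κf := κf) (α := α)
  refine ⟨fun ρ => max (g₁ ρ) (g₂ ρ), fun θ hθ hcof hgB hg h₀ hK' hunb' hst' C _ hCm hs hCc => ?_⟩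
  exact ⟨h1 θ hθ hcof hgB (fun ρ hρ => (le_max_left _ _).trans_lt (hg ρ hρ)) h₀ hK' hunb' hst' C
    hCm hs hCc, h2 θ hθ (fun ρ hρ => (le_max_right _ _).trans_lt (hg ρ hρ)) h₀ hK' hunb' hst' C
    hCm hs hCc⟩

end Vale.Agent.P307.R2.H578
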