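import Vale.Agent.P307.R2.H229.Few
import Vale.Agent.P307.R2.H287.CloStr

/-!
Small strong submodels which are closed under the reflection of the small tuples of a family of
sets over their small pieces.
-/

set_option linter.unusedSectionVars false

universe u v

open FirstOrder Cardinal Set

namespace Vale.Agent.P307.R2.H578

open Vale.Agent.P307 Vale.Agent.P307.H304 Vale.Agent.P307.R2.H287 Vale.Agent.P307.R2.H1
  Vale.Agent.P307.R2.H971 Vale.Agent.P307.R2.H541 Language.Structure Language.Substructure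
open Vale.Agent.P307.R2.H68 (Clo)

/-- One step of the closure. -/
theorem exists_step_pow {C : Type u} {ρ Λ : Cardinal.{u}} (hρ : ℵ₀ ≤ ρ) (hΛ : Λ ^ ρ = Λ)
    (hρΛ : ρ < Λ) (Φ : Set C → Set C) (hΦ : ∀ q : Set C, #q ≤ ρ → #(Φ q) ≤ Λ) :
    ∃ G : Set C → Set C, (∀ S : Set C, #S ≤ Λ → #(G S) ≤ Λ) ∧
      ∀ S q : Set C, q ⊆ S → #q ≤ ρ → Φ q ⊆ G S := by
  have hΛ0 : ℵ₀ ≤ Λ := hρ.trans hρΛ.le
  refine ⟨fun S => ⋃ q : {q : Set C | q ⊆ S ∧ #q ≤ ρ}, Φ q.1, fun S hS => ?_,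
    fun S q hq hqc => ?_⟩
  · have h1 : #{q : Set C | q ⊆ S ∧ #q ≤ ρ} ≤ Λ := by
      have h2 : #{q : Set C | q ⊆ S ∧ #q ≤ ρ} ≤ max #S ℵ₀ ^ ρ := mk_bounded_subset_le S ρ
      have h3 : max #S ℵ₀ ^ ρ ≤ Λ ^ ρ := power_le_power_right (max_le hS hΛ0)
      exact h2.trans (h3.trans hΛ.le)
    have h4 : ∀ q : {q : Set C | q ⊆ S ∧ #q ≤ ρ}, #(Φ q.1) ≤ Λ := fun q => hΦ q.1 q.2.2
    have h5 := mk_iUnion_le (fun q : {q : Set C | q ⊆ S ∧ #q ≤ ρ} => Φ q.1)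
    exact h5.trans ((mul_le_mul' h1 (ciSup_le' h4)).trans (mul_eq_self hΛ0).le)
  · exact subset_iUnion (fun q : {q : Set C | q ⊆ S ∧ #q ≤ ρ} => Φ q.1) ⟨q, hq, hqc⟩

/-- Closure under operations on the subsets of size at most `ρ`. -/
theorem exists_clo_pow {C : Type u} {ρ Λ : Cardinal.{u}} (hρ : ℵ₀ ≤ ρ) (hΛ : Λ ^ ρ = Λ)
    (hρΛ : ρ < Λ) (Φ : Set C → Set C) (hΦ : ∀ q : Set C, #q ≤ ρ → #(Φ q) ≤ Λ) (S₀ : Set C)
    (hS₀ : #S₀ ≤ Λ) : ∃ T : Set C, S₀ ⊆ T ∧ #T ≤ Λ ∧ ∀ q ⊆ T, #q ≤ ρ → Φ q ⊆ T := by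
  classical
  have hΛ0 : ℵ₀ ≤ Λ := hρ.trans hρΛ.le
  obtain ⟨G, hG1, hG2⟩ := exists_step_pow hρ hΛ hρΛ Φ hΦ
  let W : Type u := SuccTy ρ
  obtain ⟨T, hT⟩ : ∃ T : W → Set C, ∀ i, T i = S₀ ∪ ⋃ j : Iio i, (T j ∪ G (T j)) :=
    ⟨(wellFounded_lt (α := W)).fix fun i rec => S₀ ∪ ⋃ j : Iio i, (rec j.1 j.2 ∪ G (rec j.1 j.2)),
      fun i => WellFounded.fix_eq _ (fun i rec => S₀ ∪ ⋃ j : Iio i,
        (rec j.1 j.2 ∪ G (rec j.1 j.2))) i⟩
  have hlt : ∀ i i' : W, i < i' → T i ∪ G (T i) ⊆ T i' := by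
    intro i i' h
    rw [hT i']
    exact (subset_iUnion (fun j : Iio i' => T j ∪ G (T j)) ⟨i, h⟩).trans subset_union_right
  have hcard : ∀ i, #(T i) ≤ Λ := by
    intro i
    induction i using (wellFounded_lt (α := W)).induction with
    | _ i ih =>
      rw [hT i]
      refine (mk_union_le _ _).trans (add_le_of_le hΛ0 hS₀ ?_)
      have h4 : ∀ j : Iio i, #(T j ∪ G (T j) : Set C) ≤ Λ := fun j =>
        (mk_union_le _ _).trans (add_le_of_le hΛ0 (ih j.1 j.2) (hG1 _ (ih j.1 j.2)))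
      have h5 := mk_iUnion_le (fun j : Iio i => T j ∪ G (T j))
      exact h5.trans ((mul_le_mul' ((mk_Iio_succTy i).trans hρΛ.le)
        (ciSup_le' h4)).trans (mul_eq_self hΛ0).le)
  refine ⟨⋃ i, T i, ?_, ?_, fun q hq hqc => ?_⟩
  · obtain ⟨i, -⟩ := exists_gt_of_small hρ (∅ : Set (SuccTy ρ)) (by simp)
    refine Subset.trans ?_ (subset_iUnion T i)
    rw [hT i]
    exact subset_union_left
  · have hW : #W ≤ Λ := by
      rw [mk_toType, card_ord]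
      exact Order.succ_le_of_lt hρΛ
    exact (mk_iUnion_le T).trans ((mul_le_mul' hW (ciSup_le' hcard)).trans (mul_eq_self hΛ0).le)
  · choose i hi using fun x : q => mem_iUnion.1 (hq x.2)
    obtain ⟨j, hj⟩ := exists_gt_of_small hρ (range i) (mk_range_le.trans hqc)
    obtain ⟨j', hj'⟩ := exists_gt_of_small hρ {j} (by
      rw [mk_singleton]
      exact one_le_aleph0.trans hρ)
    have h1 : q ⊆ T j := fun x hx =>
      hlt _ _ (hj _ ⟨⟨x, hx⟩, rfl⟩) (Or.inl (hi ⟨x, hx⟩))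
    exact ((hG2 _ q h1 hqc).trans subset_union_right).trans
      ((hlt j j' (hj' j rfl)).trans (subset_iUnion T j'))

variable {ι : Type v} {L : Language.{u, u}} {K : AEC L} {ℓ θ τ ρ Λ : Cardinal.{u}}
  {κf α : Cardinal.{u} → Cardinal.{u}} {C : Type u} [L.Structure C]

section

variable (h₀ : BasePt K ℓ κf α θ) (hK : K.IsLS ℓ)
  (hunb : ∀ ν, ν < κf ν ∧ K.CategoricalIn (κf ν)) (hst : Stab K ℓ α (thr κf))
  (hCm : K.mem C) (hs : Sat K θ C) (hCc : #C = Order.succ θ)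

include h₀ hK hunb hst hCm hs hCc

/-- The orbits of the small tuples over a small set have few codes. -/
theorem pg_codes (hℓρ : ℓ ≤ ρ) (hΛρ : Λ ^ ρ = Λ) (hρΛ : ρ ≤ Λ) (hΛθ : Λ < θ) {κ : Type u}
    (hκ : #κ ≤ ρ) {z : Set C} (hz : #z ≤ Λ) :
    ∃ (Cd : Type u) (code : (κ → C) → Cd), #Cd ≤ Λ ∧ ∀ c c', code c = code c' →
      ∃ h ∈ autG L C, (∀ a ∈ z, h a = a) ∧ ∀ i, h (c i) = c' i := by
  classical
  have hρ : ℵ₀ ≤ ρ := hK.1.trans hℓρ
  have hℓΛ : ℓ ≤ Λ := hℓρ.trans hρΛ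
  have hΛ0 : ℵ₀ ≤ Λ := hρ.trans hρΛ
  obtain ⟨t⟩ := exists_tpl' hK hunb
  let μ : Cardinal.{u} := α Λ
  have hνμ : Λ ≤ μ := (hst Λ hℓΛ).1
  have hμθ : μ < θ := h₀.al Λ hΛθ
  have hℓμ : ℓ ≤ μ := hℓΛ.trans hνμ
  let m : Cardinal.{u} := max (max θ (thr κf θ)) (thr κf μ)
  obtain ⟨hm, hcat⟩ := hunb m
  let κ₁ : Cardinal.{u} := κf m
  have hθκ : θ ≤ κ₁ := ((le_max_left _ _).trans (le_max_left _ _)).trans hm.le
  have hθ0 : ℵ₀ ≤ θ := H541.aleph0_le_pt h₀ hK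
  obtain ⟨E⟩ := exists_em t κ₁.ord.ToType
  have hEc : #E.N = κ₁ := E.card_eq (h₀.pt.lt.le.trans hθκ) (mk_ord_toType κ₁)
  have hne : Nonempty κ₁.ord.ToType := by
    rw [← mk_ne_zero_iff, mk_ord_toType]
    exact (aleph0_pos.trans_le (hθ0.trans hθκ)).ne'
  have hEs : Sat K θ E.N := h₀.sat hK hunb
    (((le_max_right _ _).trans (le_max_left _ _)).trans (hm.le.trans hEc.ge))
  obtain ⟨f, hf⟩ := H804.exists_embed_sat h₀ hK hCm hCc E.mem hEs (hθκ.trans hEc.ge)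
  have hEμ : thr κf μ ≤ #E.N := (le_max_right _ _).trans (hm.le.trans hEc.ge)
  obtain ⟨Cd, code, hCd, hcode⟩ := exists_code_types hK hunb hℓμ hℓΛ hρ hΛρ E hEμ (ι := κ)
    (ζ := z) hκ (hκ.trans (hρΛ.trans hνμ)) hz (hz.trans hνμ) (fun a => f a)
  refine ⟨Cd, fun c => code fun i => f (c i), hCd, fun c c' hc => ?_⟩
  have h1 := hcode _ _ hc
  have hCμ : thr κf μ ≤ #C := ((h₀.pt.thr _ hμθ).le.trans (Order.le_succ θ)).trans hCc.ge
  have hsum : #(κ ⊕ z) ≤ Λ := by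
    rw [mk_sum, lift_id, lift_id]
    exact add_le_of_le hΛ0 (hκ.trans hρΛ) hz
  have h2 : EqS L μ (Sum.elim c fun a : z => (a : C)) (Sum.elim c' fun a : z => (a : C)) := by
    refine (H514.eqS_emb_iff hK hunb hℓμ (hsum.trans hνμ) f hf hCμ _ _).1 ?_
    have h3 : (fun i => f (Sum.elim c (fun a : z => (a : C)) i)) =
        Sum.elim (fun i => f (c i)) fun a : z => f a := by
      funext x
      rcases x with x | x <;> rfl
    have h4 : (fun i => f (Sum.elim c' (fun a : z => (a : C)) i)) =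
        Sum.elim (fun i => f (c' i)) fun a : z => f a := by
      funext x
      rcases x with x | x <;> rfl
    rw [h3, h4]
    exact h1
  obtain ⟨g, hg, hgg⟩ := exists_mem_autG h₀ hK hunb hst hCm hs hCc hℓΛ hΛθ hsum _ _ h2
  exact ⟨g, hg, fun a ha => hgg (Sum.inr ⟨a, ha⟩), fun e => hgg (Sum.inl e)⟩

/-- **Closed strong submodels of small size.** For a small tuple `e` there is a small strong
submodel `T ⊇ e` such that all the small sets are moved into `T`, face by face, over the small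
pieces of `T`. -/
theorem exists_brute (hτ : BasePt K ℓ κf α τ) (hτθ : τ ≤ θ) (hℓρ : ℓ ≤ ρ) (hρτ : ρ < τ) :
    ∃ Λ < τ, ∀ {ι : Type v} (A : Finset ι → Set C) (F : Finset (Finset ι)) (e : Set C), #e ≤ ρ →
      ∃ T : L.Substructure C, K.le T ∧ e ⊆ T ∧ thr κf ρ ≤ #T ∧ #T ≤ Λ ∧
        ∀ q ⊆ (T : Set C), #q ≤ ρ → ∀ y : Set C, #y ≤ ρ →
          ∃ t ∈ autG L C, (∀ x ∈ q, t x = x) ∧ ∀ v ∈ F, ∀ a ∈ y, a ∈ A v → t a ∈ A v ∩ T := by
  classical
  have hρ : ℵ₀ ≤ ρ := hK.1.trans hℓρ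
  let δ : Cardinal.{u} := max ρ (thr κf ρ)
  have hδτ : δ < τ := max_lt hρτ (hτ.pt.thr _ hρτ)
  have hδ : ℵ₀ ≤ δ := hρ.trans (le_max_left _ _)
  let Λ : Cardinal.{u} := 2 ^ δ
  have hΛτ : Λ < τ := hτ.pow _ hδτ
  have hδΛ : δ < Λ := cantor δ
  have hρΛ : ρ < Λ := (le_max_left _ _).trans_lt hδΛ
  have hΛ0 : ℵ₀ ≤ Λ := hδ.trans hδΛ.le
  have hΛρ : Λ ^ ρ = Λ := by
    change (2 ^ δ) ^ ρ = 2 ^ δ
    rw [← power_mul, mul_eq_left hδ (le_max_left _ _) (aleph0_pos.trans_le hρ).ne']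
  refine ⟨Λ, hΛτ, fun {ι} A F e he => ?_⟩
  have hCM : K.le (⊤ : L.Substructure C) := K.le_refl hCm
  obtain ⟨φ, hφc, -, hφ⟩ := exists_clo_strong hK hCM
  let I : Type u := ρ.ord.ToType
  have hI : #I = ρ := mk_ord_toType ρ
  have hIne : Nonempty I := by
    rw [← mk_ne_zero_iff, hI]
    exact (aleph0_pos.trans_le hρ).ne'
  -- the labels
  let Lb : Type u := ULift.{u} (Fin F.card → Prop)
  let lab : C → Lb := fun a => ⟨fun k => a ∈ A (F.equivFin.symm k)⟩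
  have hLb : #(I → Lb) ≤ Λ := by
    have h1 : #(I → Lb) = #Lb ^ #I := by simp
    have h2 : #Lb ≤ δ := (lt_aleph0_of_finite Lb).le.trans hδ
    rw [h1, hI]
    calc #Lb ^ ρ ≤ Λ ^ ρ := power_le_power_right (h2.trans hδΛ.le)
      _ = Λ := hΛρ
  -- the codes
  have hcd : ∀ q : Set C, ∃ (Cd : Type u) (code : (I → C) → Cd), #Cd ≤ Λ ∧ (#q ≤ Λ →
      ∀ c c', code c = code c' → ∃ h ∈ autG L C, (∀ a ∈ q, h a = a) ∧ ∀ i, h (c i) = c' i) := by
    intro q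
    by_cases hq : #q ≤ Λ
    · obtain ⟨Cd, code, h1, h2⟩ := pg_codes h₀ hK hunb hst hCm hs hCc hℓρ hΛρ hρΛ.le
        (hΛτ.trans_le hτθ) hI.le hq
      exact ⟨Cd, code, h1, fun _ => h2⟩
    · exact ⟨PUnit, fun _ => PUnit.unit, by
        rw [mk_punit]
        exact one_le_aleph0.trans hΛ0, fun h => absurd h hq⟩
  choose Cd code hCd hcode using hcd
  -- the representatives
  let rp : ∀ q : Set C, Cd q × (I → Lb) → I → C := fun q p =>
    if h : ∃ x : I → C, code q x = p.1 ∧ (fun i => lab (x i)) = p.2 then h.choose else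
      fun _ => Classical.choice (by
        rw [← mk_ne_zero_iff, hCc]
        exact (Order.bot_lt_succ θ).ne')
  have hrp : ∀ q (x : I → C), code q (rp q (code q x, fun i => lab (x i))) = code q x ∧
      (fun i => lab (rp q (code q x, fun i => lab (x i)) i)) = fun i => lab (x i) := by
    intro q x
    have h : ∃ x' : I → C, code q x' = code q x ∧ (fun i => lab (x' i)) = fun i => lab (x i) :=
      ⟨x, rfl, rfl⟩
    have h1 : rp q (code q x, fun i => lab (x i)) = h.choose := dif_pos h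
    rw [h1]
    exact h.choose_spec
  let Φ : Set C → Set C := fun q => {c | ∃ s : Finset C, (s : Set C) = q ∧ c ∈ φ s} ∪
    ⋃ p : Cd q × (I → Lb), range (rp q p)
  have hΦ : ∀ q : Set C, #q ≤ ρ → #(Φ q) ≤ Λ := by
    intro q _
    refine (mk_union_le _ _).trans (add_le_of_le hΛ0 ?_ ?_)
    · by_cases h : ∃ s : Finset C, (s : Set C) = q
      · obtain ⟨s, hs⟩ := h
        refine (mk_le_mk_of_subset (t := φ s) ?_).trans ((hφc s).trans (hℓρ.trans hρΛ.le))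
        rintro c ⟨s', hs', hc⟩
        have h1 : s' = s := Finset.coe_injective (hs'.trans hs.symm)
        rwa [h1] at hc
      · have h1 : {c | ∃ s : Finset C, (s : Set C) = q ∧ c ∈ φ s} = ∅ := by
          refine eq_empty_of_forall_notMem ?_
          rintro c ⟨s, hs, -⟩
          exact h ⟨s, hs⟩
        rw [h1]
        simp
    · refine (mk_iUnion_le _).trans ((mul_le_mul' ?_ (ciSup_le' fun p => mk_range_le.trans
        (hI.le.trans hρΛ.le))).trans (mul_eq_self hΛ0).le)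
      rw [mk_prod, lift_id, lift_id]
      exact (mul_le_mul' (hCd q) hLb).trans (mul_eq_self hΛ0).le
  -- a set of size `thr κf ρ`
  obtain ⟨S₁, hS₁⟩ : ∃ S₁ : Set C, #S₁ = thr κf ρ := by
    have h1 : thr κf ρ ≤ #(univ : Set C) := by
      rw [mk_univ, hCc]
      exact ((le_max_right _ _).trans (hδτ.le.trans hτθ)).trans (Order.le_succ θ)
    obtain ⟨S₁, -, h2⟩ := le_mk_iff_exists_subset.1 h1
    exact ⟨S₁, h2⟩
  obtain ⟨T, hT1, hT2, hT3⟩ := exists_clo_pow hρ hΛρ hρΛ Φ hΦ (e ∪ S₁) ((mk_union_le _ _).trans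
    (add_le_of_le hΛ0 (he.trans hρΛ.le) (hS₁.le.trans ((le_max_right _ _).trans hδΛ.le))))
  have hTφ : Clo φ T := fun s hs x hx => hT3 s hs
    ((lt_aleph0_iff_set_finite.2 s.finite_toSet).le.trans hρ) (Or.inl ⟨s, rfl, hx⟩)
  obtain ⟨T', hT', hT'T⟩ := hφ T hTφ
  have hT'T' : (T' : Set C) = T := by
    rw [hT'T]
    simp
  refine ⟨T', hT', ?_, ?_, ?_, fun q hq hqc y hyc => ?_⟩
  · rw [hT'T']
    exact subset_union_left.trans hT1
  · change thr κf ρ ≤ #(T' : Set C)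
    rw [hT'T', ← hS₁]
    exact mk_le_mk_of_subset (subset_union_right.trans hT1)
  · change #(T' : Set C) ≤ Λ
    rw [hT'T']
    exact hT2
  · rcases y.eq_empty_or_nonempty with rfl | hyne
    · exact ⟨1, one_mem _, fun _ _ => rfl, fun v _ a ha => ha.elim⟩
    · -- an enumeration of `y`
      have h1 : #y ≤ #I := hyc.trans hI.ge
      obtain ⟨f⟩ := h1
      have : Nonempty y := hyne.to_subtype
      let x : I → C := fun i => (Function.invFun f i : y)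
      obtain ⟨h2, h3⟩ := hrp q x
      obtain ⟨t, ht, ht1, ht2⟩ := hcode q (hqc.trans hρΛ.le) _ _ h2.symm
      refine ⟨t, ht, ht1, fun v hv a ha haA => ?_⟩
      have h4 : x (f ⟨a, ha⟩) = a := by
        change ((Function.invFun f (f ⟨a, ha⟩) : y) : C) = a
        rw [Function.leftInverse_invFun f.injective]
      have h5 : t a = rp q (code q x, fun i => lab (x i)) (f ⟨a, ha⟩) := by
        have h6 := ht2 (f ⟨a, ha⟩)
        rwa [h4] at h6
      refine ⟨?_, ?_⟩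
      · have h6 := congrFun (congrArg ULift.down (congrFun h3 (f ⟨a, ha⟩))) (F.equivFin ⟨v, hv⟩)
        change (rp q (code q x, fun i => lab (x i)) (f ⟨a, ha⟩) ∈
          A (F.equivFin.symm (F.equivFin ⟨v, hv⟩))) =
          (x (f ⟨a, ha⟩) ∈ A (F.equivFin.symm (F.equivFin ⟨v, hv⟩))) at h6
        rw [Equiv.symm_apply_apply, h4, ← h5] at h6
        exact h6.mpr haA
      · rw [h5, hT'T']
        refine hT3 q ?_ hqc (Or.inr (mem_iUnion.2 ⟨_, ⟨f ⟨a, ha⟩, rfl⟩⟩))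
        rw [← hT'T']
        exact hq

end

end Vale.Agent.P307.R2.H578
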