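import Vale.Agent.P307.R2.H804.Dom

/-!
Finite continuity of independence along increasing sequences of standard submodels.
-/

set_option linter.unusedSectionVars false

universe u v w

open FirstOrder Cardinal Set

namespace Vale.Agent.P307.R2.H578

open Vale.Agent.P307 Vale.Agent.P307.H304 Vale.Agent.P307.R2.H287 Vale.Agent.P307.R2.H1
  Vale.Agent.P307.R2.H971 Vale.Agent.P307.R2.H804 Vale.Agent.P307.R2.H806
  Language.Structure Language.Substructure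

variable {L : Language.{u, u}} {K : AEC L} {ℓ Λ μ ν ρ τ ν' : Cardinal.{u}}
  {κf α : Cardinal.{u} → Cardinal.{u}} {t : Tpl K ℓ} {E : EM t (SuccTy Λ ⊕ₗ TailTy τ)}
  {C : Type u} [L.Structure C]

/-- Finite sets have finite bases over standard submodels. -/
theorem exists_base_fin (hK : K.IsLS ℓ) (hunb : ∀ ν, ν < κf ν ∧ K.CategoricalIn (κf ν))
    (hℓ : ℓ ≤ τ) (hτν : τ ≤ ν') (hτΛ : Order.succ τ ≤ Λ) (hthr : thr κf ν' ≤ Order.succ Λ)
    (hsE : Sat K Λ E.N) (hC : K.mem C) (hCc : #C = Order.succ Λ) (hs : Sat K Λ C)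
    {x : Pos K Λ E.N C} {a : SuccTy Λ} (hx : IsStd x a) (R : Set C) (hR : R.Finite) :
    ∃ V : Set (SuccTy Λ), V ⊆ Iio a ∧ V.Finite ∧ ∀ V' : Set (SuccTy Λ), V ⊆ V' → V' ⊆ Iio a →
      CoH L τ ν' R x.S' (chA x V') := by
  classical
  have hτ : ℵ₀ ≤ τ := hK.1.trans hℓ
  have hℓΛ : ℓ ≤ Λ := (hℓ.trans (Order.le_succ τ)).trans hτΛ
  have hΛ : ℵ₀ ≤ Λ := hK.1.trans hℓΛ
  have hEc := card_em hΛ hℓΛ hτ hτΛ E
  have hF : #(TailTy τ) ≤ Λ := (mk_tailTy hτ).trans_le hτΛ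
  obtain ⟨y, b, hy, hxy, -, hRy, -⟩ := exists_std_ext hK hℓΛ hℓΛ hF hC ((Order.le_succ Λ).trans
    hCc.ge) hsE hs x ∅ R (by simp) ((lt_aleph0_iff_set_finite.2 hR).le.trans hΛ) a
  obtain ⟨g, hg⟩ := y.exists_iso hK hℓΛ E.mem hC hsE hs hEc hCc
  choose supp sm hsm using fun x : E.N => exists_finset_term E.top x
  let W : Set (SuccTy Λ ⊕ₗ TailTy τ) := ⋃ k ∈ R, (supp (g.symm k) : Set _)
  have hW : W.Finite := hR.biUnion fun k _ => (supp _).finite_toSet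
  have hinl : Function.Injective
      (fun a : SuccTy Λ => (toLex (Sum.inl a) : SuccTy Λ ⊕ₗ TailTy τ)) :=
    fun a b hab => Sum.inl_injective (toLex.injective hab)
  refine ⟨((fun a : SuccTy Λ => (toLex (Sum.inl a) : SuccTy Λ ⊕ₗ TailTy τ)) ⁻¹' W) ∩ Iio a,
    inter_subset_right, (hW.preimage hinl.injOn).subset inter_subset_left, ?_⟩
  intro V' hV' hV'a
  have hgx : ∀ p ∈ x.R, g p.1 = p.2 := fun p hp => hg p (hxy hp)
  have h1 := (coH_em hK hunb hℓ hτν E (hthr.trans hEc.ge) (s := Iio a) (s' := V')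
    (fun c hc d hd => lt_of_lt_of_le hc (not_lt.1 hd)) (W := W)
    fun c hc hcW => hV' ⟨hcW, hc⟩).equiv (hτ.trans hτν) hτν g
  rw [← chA_eq hx hV'a g hgx, ← chA_eq hx Subset.rfl g hgx, chA_Iio hx] at h1
  refine h1.mono ?_ Subset.rfl Subset.rfl
  intro c hc
  refine ⟨g.symm c, ?_, g.apply_symm_apply c⟩
  change g.symm c ∈ closure (exLang L t.Λ) _
  rw [← hsm (g.symm c)]
  exact Vale.Agent.P307.R2.H773.realize_mem_cl (sm (g.symm c))
    (fun d : supp (g.symm c) => d.1) fun d => mem_biUnion hc d.2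

/-- **Finite continuity**: a finite set is free from the union of a sequence of standard submodels
over one of them. -/
theorem fcont_seq (hK : K.IsLS ℓ) (hunb : ∀ ν, ν < κf ν ∧ K.CategoricalIn (κf ν))
    (hℓ : ℓ ≤ τ) (hτν : τ ≤ ν') (hτΛ : Order.succ τ ≤ Λ) (hthr : thr κf ν' ≤ Order.succ Λ)
    (hsE : Sat K Λ E.N) (hC : K.mem C) (hCc : #C = Order.succ Λ) (hs : Sat K Λ C)
    (x : ℕ → Pos K Λ E.N C) (a : ℕ → SuccTy Λ) (hx : ∀ n, IsStd (x n) (a n))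
    (ha : Monotone a) {y : Pos K Λ E.N C} {b : SuccTy Λ} (hy : IsStd y b)
    (hxy : ∀ n, x n ≤ y) (hb : IsLUB (range a) b) (hlim : ∀ n, a n < b) (R : Set C)
    (hR : R.Finite) : ∃ n, CoH L τ ν' R y.S' (x n).S' := by
  obtain ⟨V, hV, hVf, hV'⟩ := exists_base_fin hK hunb hℓ hτν hτΛ hthr hsE hC hCc hs hy R hR
  have h1 : ∀ v ∈ V, ∃ n, v < a n := by
    intro v hv
    obtain ⟨_, ⟨n, rfl⟩, hn⟩ := (lt_isLUB_iff hb).1 (hV hv)
    exact ⟨n, hn⟩
  choose! f hf using h1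
  obtain ⟨n, hn⟩ := (hVf.image f).bddAbove
  have h2 : V ⊆ Iio (a n) := fun v hv =>
    lt_of_lt_of_le (hf v hv) (ha (hn ⟨v, hv, rfl⟩))
  have h3 := hV' (Iio (a n)) h2 fun v hv => lt_trans hv (hlim n)
  rw [chA_of_le (hx n) (hxy n) Subset.rfl, chA_Iio (hx n)] at h3
  exact ⟨n, h3⟩

end Vale.Agent.P307.R2.H578
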