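import Vale.Agent.P307.R2.H578.FCont

/-!
Minimal types over strong submodels of size `θ`.
-/

set_option linter.unusedSectionVars false

universe u v w

open FirstOrder Cardinal Set

namespace Vale.Agent.P307.R2.H578

open Vale.Agent.P307 Vale.Agent.P307.H304 Vale.Agent.P307.R2.H287 Vale.Agent.P307.R2.H1
  Vale.Agent.P307.R2.H971 Vale.Agent.P307.R2.H804 Vale.Agent.P307.R2.H806
  Language.Structure Language.Substructure

variable {L : Language.{u, u}} {K : AEC L} {ℓ θ μ ν ρ : Cardinal.{u}}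
  {κf α : Cardinal.{u} → Cardinal.{u}} {C : Type u} [L.Structure C]

/-- One element as a tuple. -/
def one (a : C) : PUnit.{u + 1} → C := fun _ => a

variable (L) in
/-- `a` and `b` have the same type over `D`, at the level `μ`. -/
def SameT (μ : Cardinal.{u}) (D : Set C) (a b : C) : Prop :=
  ∀ (ζ : Type u) (y : ζ → C), #ζ ≤ μ → (∀ z, y z ∈ D) →
    EqS L μ (Sum.elim y (one a)) (Sum.elim y (one b))

theorem SameT.symm {D : Set C} {a b : C} (h : SameT L μ D a b) : SameT L μ D b a :=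
  fun ζ y hζ hy => (h ζ y hζ hy).symm

theorem SameT.trans {D : Set C} {a b c : C} (h : SameT L μ D a b) (h' : SameT L μ D b c) :
    SameT L μ D a c :=
  fun ζ y hζ hy => (h ζ y hζ hy).trans (h' ζ y hζ hy)

theorem SameT.mono {D D' : Set C} {a b : C} (h : SameT L μ D a b) (hD : D' ⊆ D) :
    SameT L μ D' a b :=
  fun ζ y hζ hy => h ζ y hζ fun z => hD (hy z)

theorem mk_punit_le (hμ : ℵ₀ ≤ μ) : #(PUnit.{u + 1}) ≤ μ := by
  rw [mk_punit]
  exact one_le_aleph0.trans hμ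

/-- Automorphisms over `D`. -/
theorem SameT.of_equiv (hμ : ℵ₀ ≤ μ) {D : Set C} (e : C ≃[L] C) (he : ∀ x ∈ D, e x = x) (a : C) :
    SameT L μ D a (e a) := by
  intro ζ y hζ hy
  refine (H804.EqS.equiv hμ (mk_sum_le' hμ hζ (mk_punit_le hμ)) e (Sum.elim y (one a))).subset ?_
  rintro _ ⟨z | z, rfl⟩
  · exact ⟨Sum.inl z, Prod.ext rfl (he _ (hy z))⟩
  · exact ⟨Sum.inr z, rfl⟩

theorem SameT.mem {D : Set C} (hμ : ℵ₀ ≤ μ) {a b : C} (h : SameT L μ D a b) (ha : a ∈ D) :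
    b ∈ D := by
  have h1 := (h PUnit.{u + 1} (one a) (mk_punit_le hμ) (fun _ => ha)).1.eq_iff (a, a)
    ⟨Sum.inl PUnit.unit, rfl⟩ (a, b) ⟨Sum.inr PUnit.unit, rfl⟩
  have h2 : a = b := h1.1 rfl
  rwa [← h2]

theorem SameT.ind {D B : Set C} {a b : C} (h : SameT L μ (D ∪ B) a b)
    (hI : Ind L κf μ D B (one a)) : Ind L κf μ D B (one b) := hI.congr h

/-- Free elements of the right side lie in the base. -/
theorem mem_of_ind (hμ : ℵ₀ ≤ μ) {D B : Set C} {a : C} (h : Ind L κf μ D B (one a))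
    (ha : a ∈ D ∪ B) : a ∈ D := by
  obtain ⟨s, h1, h2⟩ := h
  obtain ⟨x₀, hx₀⟩ := h2 PUnit.{u + 1} (one a) (mk_punit_le hμ) fun _ => ha
  have h3 := (hx₀ x₀ le_rfl).1.eq_iff (a, a) ⟨Sum.inl PUnit.unit, rfl⟩
    (s x₀ PUnit.unit, a) ⟨Sum.inr PUnit.unit, rfl⟩
  have h4 : a = s x₀ PUnit.unit := h3.2 rfl
  rw [h4]
  exact h1 _ _

section

variable (hθ : BasePt K ℓ κf α θ) (hK : K.IsLS ℓ)
  (hunb : ∀ ν, ν < κf ν ∧ K.CategoricalIn (κf ν)) (hl : Lvl ℓ κf α ν μ ρ θ)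
  (hCm : K.mem C) (hs : Sat K θ C) (hCc : #C = Order.succ θ)

include hθ hK hunb hl hCm hs hCc

/-- Conjugacy over strong submodels. -/
theorem exists_aut_one {M : L.Substructure C} (hM : K.le M) (hMc : #M = θ) {a b : C}
    (h : SameT L μ (M : Set C) a b) : ∃ g : C ≃[L] C, (∀ x ∈ M, g x = x) ∧ g a = b := by
  obtain ⟨g, h1, h2⟩ := exists_aut hθ hK hunb hl hCm hs hCc M hM hMc
    (mk_punit_le (hK.1.trans hl.hℓ)) (one a) (one b) h
  exact ⟨g, h1, h2 PUnit.unit⟩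

/-- Free extensions of elements. -/
theorem exists_free_one {M : L.Substructure C} (hM : K.le M) (hMc : #M = θ) {D : Set C}
    (hDM : D ⊆ M) (hD : Refl L ρ D) (a : C) :
    ∃ b, Ind L κf μ D M (one b) ∧ SameT L μ D a b := by
  obtain ⟨r, h1, h2⟩ := exists_free hθ hK hunb hl hs M hM hMc
    (mk_punit_le (hl.hμ hK)) (one a) hDM hD
  have h3 : one (r PUnit.unit) = r := funext fun _ => rfl
  refine ⟨r PUnit.unit, ?_, fun ζ y hζ hy => ?_⟩
  · rwa [h3]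
  · rw [h3]
    exact (h2 ζ y hζ hy).symm

/-- The union of a sequence of types of elements over an increasing sequence of submodels. -/
theorem exists_limit_seq (P : ℕ → L.Substructure C) (hP : ∀ n, K.le (P n))
    (hPc : ∀ n, #(P n) = θ) (hPm : ∀ n, P n ≤ P (n + 1)) (a : ℕ → C) (k : ℕ → (C ≃[L] C))
    (hk : ∀ n, ∀ p ∈ P n, k n p = p) (hka : ∀ n, k n (a n) = a (n + 1)) :
    ∃ (b : C) (σ : ℕ → (C ≃[L] C)), ∀ n, (∀ p ∈ P n, σ n p = p) ∧ σ n (a n) = b := by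
  have hℓθ : ℓ ≤ θ := hθ.pt.lt.le
  have hθ0 : ℵ₀ ≤ θ := hK.1.trans hℓθ
  let g : ℕ → (C ≃[L] C) := fun n => Nat.rec (Language.Equiv.refl L C)
    (fun n e => e.comp (k n).symm) n
  have hg1 : ∀ n c, g (n + 1) c = g n ((k n).symm c) := fun n c => rfl
  have hg2 : ∀ n, g n (a n) = a 0 := by
    intro n
    induction n with
    | zero => rfl
    | succ n ih => rw [hg1, ← hka n, (k n).symm_apply_apply, ih]
  have hg3 : ∀ n, ∀ p ∈ P n, g (n + 1) p = g n p := by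
    intro n p hp
    rw [hg1]
    congr 1
    apply (k n).injective
    rw [(k n).apply_symm_apply, hk n p hp]
  have hpos : ∀ n, ∃ w : Pos K θ C C, w.R = range fun p : P n => ((p : C), g n p) := by
    intro n
    obtain ⟨w, hw⟩ := exists_pos_of_emb (P n).subtype ((g n).toEmbedding.comp (P n).subtype)
      (AEC.emb_subtype.2 (hP n)) (AEC.Emb.comp (AEC.Emb.of_equiv (g n) hCm)
        (AEC.emb_subtype.2 (hP n))) (hPc n)
    exact ⟨w, hw⟩
  choose w hw using hpos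
  have hwm : Monotone w := by
    refine monotone_nat_of_le_succ fun n => ?_
    rw [Pos.le_def, hw, hw]
    rintro _ ⟨p, rfl⟩
    exact ⟨⟨p, hPm n p.2⟩, Prod.ext rfl (hg3 n p p.2)⟩
  have hN : #(ULift.{u} ℕ) ≤ θ := by
    rw [mk_uLift, mk_nat, lift_aleph0]
    exact hθ0
  obtain ⟨y, hy, -⟩ := Pos.exists_iUnion (ι := ULift.{u} ℕ) hθ0 hN (fun n => w n.down)
    fun n m hnm => hwm hnm
  obtain ⟨h, hh⟩ := y.exists_iso hK hℓθ hCm hCm hs hs hCc hCc
  have hhg : ∀ n, ∀ p ∈ P n, h p = g n p := by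
    intro n p hp
    have h1 := hy ⟨n⟩
    rw [Pos.le_def, hw] at h1
    exact hh (p, g n p) (h1 ⟨⟨p, hp⟩, rfl⟩)
  refine ⟨h.symm (a 0), fun n => h.symm.comp (g n), fun n => ⟨fun p hp => ?_, ?_⟩⟩
  · change h.symm (g n p) = p
    rw [← hhg n p hp, h.symm_apply_apply]
  · change h.symm (g n (a n)) = _
    rw [hg2]

/-- **Minimal types over strong submodels.** -/
theorem exists_min_model : ∃ (P : L.Substructure C) (a : C), K.le P ∧ #P = θ ∧ a ∉ P ∧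
    ∀ V : L.Substructure C, K.le V → #V = θ → P ≤ V → ∀ y, y ∉ V → SameT L μ (P : Set C) a y →
      Ind L κf μ (P : Set C) V (one y) := by
  classical
  have hμ := hl.hμ hK
  have hℓθ : ℓ ≤ θ := hθ.pt.lt.le
  have hθ0 : ℵ₀ ≤ θ := hK.1.trans hℓθ
  by_contra hcon
  push Not at hcon
  -- the parameters
  obtain ⟨τ, hτ⟩ : ∃ τ, τ = limB κf μ := ⟨_, rfl⟩
  have hμτ : μ ≤ τ := hτ ▸ (le_opB hunb μ).trans (opB_le_limB κf μ)
  have hℓτ : ℓ ≤ τ := hl.hℓμ.trans hμτ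
  have hτ0 : ℵ₀ ≤ τ := hK.1.trans hℓτ
  have hτθ : τ < θ := hτ ▸ hθ.pt.lim μ (hl.μΛ hunb)
  have hτs : Order.succ τ ≤ θ := Order.succ_le_of_lt hτθ
  have hthr : thr κf τ ≤ Order.succ θ := (hθ.pt.thr τ hτθ).le.trans (Order.le_succ θ)
  have hF : #(TailTy τ) ≤ θ := (mk_tailTy hτ0).trans_le hτs
  obtain ⟨t⟩ := exists_tpl' hK hunb
  obtain ⟨E⟩ := exists_em t (SuccTy θ ⊕ₗ TailTy τ)
  have hsE : Sat K θ E.N := sat_em_low hθ.ab hK hℓθ (hθ.largeExt hK hunb _) t hℓθ hF E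
  -- the states
  let St : Type u := {s : Pos K θ E.N C × SuccTy θ × C // IsStd s.1 s.2.1 ∧ s.2.2 ∉ s.1.S'}
  have step : ∀ s : St, ∃ s' : St, s.1.1 ≤ s'.1.1 ∧ s.1.2.1 < s'.1.2.1 ∧
      (∃ k : C ≃[L] C, (∀ p ∈ s.1.1.S', k p = p) ∧ k s.1.2.2 = s'.1.2.2) ∧
      ¬ Ind L κf μ (s.1.1.S' : Set C) s'.1.1.S' (one s'.1.2.2) := by
    rintro ⟨⟨x, c, a⟩, hx, ha⟩
    obtain ⟨V, hV, hVc, hPV, y, hyV, hay, hind⟩ := hcon x.S' a x.le' x.card' ha
    obtain ⟨k₁, hk₁, hk₁'⟩ := exists_aut_one hθ hK hunb hl hCm hs hCc x.le' x.card' hay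
    obtain ⟨x', c', hx', hxx', -, hVx', hcc'⟩ := exists_std_ext hK hℓθ hℓθ hF hCm
      ((Order.le_succ θ).trans hCc.ge) hsE hs x ∅ (V : Set C) (by simp) hVc.le c
    obtain ⟨b, hb, hyb⟩ := exists_free_one hθ hK hunb hl hCm hs hCc x'.le' x'.card' hVx'
      (refl_big hθ hK hunb hl V hV hVc) y
    obtain ⟨k₂, hk₂, hk₂'⟩ := exists_aut_one hθ hK hunb hl hCm hs hCc hV hVc hyb
    have hbx : b ∉ x'.S' := by
      intro h
      exact hyV (hyb.symm.mem hμ (mem_of_ind hμ hb (Or.inr h)))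
    refine ⟨⟨⟨x', c', b⟩, hx', hbx⟩, hxx', hcc', ⟨k₂.comp k₁, fun p hp => ?_, ?_⟩, fun h => ?_⟩
    · change k₂ (k₁ p) = p
      rw [hk₁ p hp, hk₂ p (hPV hp)]
    · change k₂ (k₁ a) = b
      rw [hk₁', hk₂']
    · refine hind (SameT.ind (a := b) ?_ (Ind.mono h ?_))
      · rw [union_eq_self_of_subset_left (show (x.S' : Set C) ⊆ V from hPV)]
        exact hyb.symm
      · exact fun z hz => Or.inr (hVx' hz)
  choose st hst1 hst2 hst3 hst4 using step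
  -- the initial state
  obtain ⟨P₀, hP₀, -, hP₀c⟩ := exists_sub_card hK hℓθ hCm ((Order.le_succ θ).trans hCc.ge) ∅
    (by simp)
  obtain ⟨i₀, -⟩ := exists_gt_of_small hθ0 (∅ : Set (SuccTy θ)) (by simp)
  obtain ⟨x₀, c₀, hx₀, -, -⟩ := exists_std_init hθ0 hℓθ hF hθ.pt.cat E P₀ hP₀ hP₀c i₀
  have ha₀ : ∃ a₀ : C, a₀ ∉ x₀.S' := by
    by_contra h
    push Not at h
    have h1 : #C ≤ θ := by
      rw [← x₀.card']
      exact mk_le_of_injective (f := fun c : C => (⟨c, h c⟩ : x₀.S'))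
        fun a b hab => congrArg Subtype.val hab
    rw [hCc] at h1
    exact absurd h1 (not_le.2 (Order.lt_succ θ))
  obtain ⟨a₀, ha₀⟩ := ha₀
  let s : ℕ → St := fun n => Nat.rec ⟨⟨x₀, c₀, a₀⟩, hx₀, ha₀⟩ (fun _ p => st p) n
  have hs1 : ∀ n, s (n + 1) = st (s n) := fun n => rfl
  have hm1 : Monotone fun n => (s n).1.1 := monotone_nat_of_le_succ fun n => hst1 (s n)
  have hm2 : StrictMono fun n => (s n).1.2.1 := strictMono_nat_of_lt_succ fun n => hst2 (s n)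
  have hN : #(ULift.{u} ℕ) ≤ θ := by
    rw [mk_uLift, mk_nat, lift_aleph0]
    exact hθ0
  obtain ⟨y, b, hy, hyR, hb⟩ := exists_std_iUnion (ι := ULift.{u} ℕ) hθ0 hN
    (fun n => (s n.down).1.1) (fun n => (s n.down).1.2.1) (fun n m hnm => hm1 hnm)
    (fun n m hnm => hm2.monotone hnm) fun n => (s n.down).2.1
  have hxy : ∀ n, (s n).1.1 ≤ y := by
    intro n
    rw [Pos.le_def, hyR]
    exact subset_iUnion (fun n : ULift.{u} ℕ => (s n.down).1.1.R) ⟨n⟩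
  have hb' : IsLUB (range fun n => (s n).1.2.1) b := by
    have h1 : (range fun n => (s n).1.2.1) = range fun n : ULift.{u} ℕ => (s n.down).1.2.1 := by
      ext z
      constructor
      · rintro ⟨n, rfl⟩
        exact ⟨⟨n⟩, rfl⟩
      · rintro ⟨n, rfl⟩
        exact ⟨n.down, rfl⟩
    rw [h1]
    exact hb
  choose k hk hk' using fun n => hst3 (s n)
  obtain ⟨a, σ, hσ⟩ := exists_limit_seq hθ hK hunb hl hCm hs hCc (fun n => (s n).1.1.S')
    (fun n => (s n).1.1.le') (fun n => (s n).1.1.card') (fun n => Pos.S'_mono (hst1 (s n)))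
    (fun n => (s n).1.2.2) k hk hk'
  obtain ⟨n, hn⟩ := fcont_seq hK hunb hℓτ le_rfl hτs hthr hsE hCm hCc hs
    (fun n => (s n).1.1) (fun n => (s n).1.2.1) (fun n => (s n).2.1) hm2.monotone hy hxy hb'
    (fun n => lt_of_lt_of_le (hm2 (Nat.lt_succ_self n)) (hb'.1 ⟨n + 1, rfl⟩)) {a}
    (finite_singleton a)
  -- the contradiction
  have h1 : Ind L κf μ ((s n).1.1.S' : Set C) (s (n + 1)).1.1.S' (one a) := by
    refine ind_of_coH hθ hK hunb hl (τ := τ) (ν' := τ) hτ.ge le_rfl y.S' y.le' y.card'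
      (A := {a}) ?_ (hn.mono Subset.rfl ?_ Subset.rfl) (mk_punit_le (hK.1.trans hl.hℓ)) _
      fun _ => rfl
    · exact union_subset (Pos.S'_mono (hxy n)) (Pos.S'_mono (hxy (n + 1)))
    · exact union_subset (Pos.S'_mono (hxy n)) (Pos.S'_mono (hxy (n + 1)))
  refine hst4 (s n) (SameT.ind (a := a) ?_ h1)
  have h2 : ((s n).1.1.S' : Set C) ⊆ (s (n + 1)).1.1.S' := Pos.S'_mono (hst1 (s n))
  rw [← hs1 n, union_eq_self_of_subset_left h2]
  have h3 := SameT.of_equiv hμ (σ (n + 1)) (D := ((s (n + 1)).1.1.S' : Set C))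
    (hσ (n + 1)).1 (s (n + 1)).1.2.2
  rw [(hσ (n + 1)).2] at h3
  exact h3.symm

end

end Vale.Agent.P307.R2.H578
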