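import Vale.Agent.P307.R2.H578.Min1
import Vale.Agent.P307.R2.H804.Xfer

/-!
Minimal types over small strong submodels of a larger saturated member.
-/

set_option linter.unusedSectionVars false

universe u v w

open FirstOrder Cardinal Set

namespace Vale.Agent.P307.R2.H578

open Vale.Agent.P307 Vale.Agent.P307.H304 Vale.Agent.P307.R2.H287 Vale.Agent.P307.R2.H1
  Vale.Agent.P307.R2.H971 Vale.Agent.P307.R2.H804 Vale.Agent.P307.R2.H806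
  Language.Structure Language.Substructure

variable {L : Language.{u, u}} {K : AEC L} {ℓ θ Λ μ ν ρ : Cardinal.{u}}
  {κf α : Cardinal.{u} → Cardinal.{u}} {C : Type u} [L.Structure C]

theorem _root_.Vale.Agent.P307.R2.H804.Lvl.up (hl : Lvl ℓ κf α ν μ ρ θ) (h : θ < Λ) :
    Lvl ℓ κf α ν μ ρ Λ :=
  ⟨hl.hℓ, hl.tB, hl.νμ, hl.opB, hl.limB, hl.lt.trans h, hl.thr.trans h.le, hl.thr'.trans h.le,
    hl.thr''.trans h.le⟩

variable (hθ : BasePt K ℓ κf α θ) (hΛ : BasePt K ℓ κf α Λ) (hθΛ : θ < Λ) (hK : K.IsLS ℓ)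
  (hunb : ∀ ν, ν < κf ν ∧ K.CategoricalIn (κf ν)) (hl : Lvl ℓ κf α ν μ ρ θ)
  (hCm : K.mem C) (hs : Sat K Λ C) (hCc : #C = Order.succ Λ)

include hθ hΛ hθΛ hK hunb hl hCm hs hCc

/-- **Minimal types over small submodels.** -/
theorem exists_min_small : ∃ (P : L.Substructure C) (a : C), K.le P ∧ #P = θ ∧ a ∉ P ∧
    ∀ V : L.Substructure C, K.le V → #V = Λ → P ≤ V → ∀ y, y ∉ V → SameT L μ (P : Set C) a y →
      Ind L κf μ (P : Set C) V (one y) := by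
  classical
  have hμ := hl.hμ hK
  have hℓθ : ℓ ≤ θ := hθ.pt.lt.le
  have hθ0 : ℵ₀ ≤ θ := hK.1.trans hℓθ
  have hℓΛ : ℓ ≤ Λ := hℓθ.trans hθΛ.le
  have hΛ0 : ℵ₀ ≤ Λ := hK.1.trans hℓΛ
  have hℓμ : ℓ ≤ μ := hl.hℓμ
  have hlΛ := hl.up hθΛ
  have hμρ := hl.μρ hunb
  have hℓρ : ℓ ≤ ρ := hℓμ.trans hμρ
  have h1μ : #(PUnit.{u + 1}) ≤ μ := mk_punit_le hμ
  have hΛC : Λ ≤ #C := (Order.le_succ Λ).trans hCc.ge
  -- the small saturated member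
  obtain ⟨C₁, _, hC₁m, hC₁c, hs₁⟩ := hθ.exists_saturated hK hunb
  have hsθ : Sat K θ C := hθ.sat hK hunb ((hΛ.pt.thr θ hθΛ).le.trans hΛC)
  obtain ⟨f, hf⟩ := exists_embed_sat hθ hK hC₁m hC₁c hCm hsθ (hθΛ.le.trans hΛC)
  obtain ⟨P₁, a₁, hP₁, hP₁c, ha₁, hmin⟩ := exists_min_model hθ hK hunb hl hC₁m hs₁ hC₁c
  have hPf := le_map_emb hf P₁ hP₁
  have hPfc : #(P₁.map f.toHom : L.Substructure C) = θ := by
    rw [← hP₁c]
    exact mk_image_eq (s := (P₁ : Set C₁)) f.injective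
  have hthrC₁ : thr κf μ ≤ #C₁ := hl.thr'.trans ((Order.le_succ θ).trans hC₁c.ge)
  refine ⟨P₁.map f.toHom, f a₁, hPf, hPfc, ?_, ?_⟩
  · rintro ⟨p, hp, hpa⟩
    rw [← f.injective hpa] at ha₁
    exact ha₁ hp
  intro V hV hVc hPV x hxV hax
  have hD : Refl L ρ ((P₁.map f.toHom : L.Substructure C) : Set C) :=
    refl_of_le hK hunb hℓρ hPf (hl.thr.trans hPfc.ge)
  refine Ind.of_small hμ hμρ hl.opB h1μ hD
    (ind_empty hΛ hK hunb hlΛ V hV hVc h1μ (one x) hPV hD) ?_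
  intro ζ m hζ hm
  have hmθ : #(range m) ≤ θ := mk_range_le.trans (hζ.trans (hl.μΛ hunb).le)
  -- the small submodels
  obtain ⟨V₀, hV₀, hV₀A, hV₀c⟩ := exists_sub_card hK hℓθ (K.mem_of_le _ hV).1
    (hθΛ.le.trans hVc.ge) (((↑) : V → C) ⁻¹' (((P₁.map f.toHom : L.Substructure C) : Set C) ∪
      range m)) ((mk_preimage_of_injective _ _ Subtype.val_injective).trans
        ((mk_union_le _ _).trans (add_le_of_le hθ0 hPfc.le hmθ)))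
  have hV' : K.le (V₀.map V.subtype.toHom) := K.le_trans V V₀ hV₀ hV
  obtain ⟨V', hV'eq⟩ : ∃ V', V' = V₀.map V.subtype.toHom := ⟨_, rfl⟩
  rw [← hV'eq] at hV'
  have hV'c : #V' = θ := by
    rw [← hV₀c, hV'eq]
    exact mk_image_eq (s := (V₀ : Set V)) V.subtype.injective
  have hV'V : V' ≤ V := by
    rw [hV'eq]
    rintro _ ⟨y, -, rfl⟩
    exact y.2
  have hPV' : P₁.map f.toHom ≤ V' := by
    rw [hV'eq]
    intro p hp
    exact ⟨⟨p, hPV hp⟩, hV₀A (Or.inl hp), rfl⟩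
  have hmV' : range m ⊆ V' := by
    rw [hV'eq]
    rintro _ ⟨z, rfl⟩
    exact ⟨⟨m z, hm z⟩, hV₀A (Or.inr ⟨z, rfl⟩), rfl⟩
  obtain ⟨N, hN, hNA, hNc⟩ := exists_sub_card hK hℓθ hCm (hθΛ.le.trans hΛC)
    ((V' : Set C) ∪ {x}) ((mk_union_le _ _).trans (add_le_of_le hθ0 hV'c.le (by
      rw [mk_singleton]
      exact one_le_aleph0.trans hθ0)))
  have hV'N : V' ≤ N := fun z hz => hNA (Or.inl hz)
  have hxN : x ∈ N := hNA (Or.inr rfl)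
  have hthrN : thr κf μ ≤ #N := hl.thr'.trans hNc.ge
  -- the embedding of `N`
  have hfP : ∀ p : P₁, f (p : C₁) ∈ N := fun p => hV'N (hPV' ⟨p, p.2, rfl⟩)
  obtain ⟨k, hk, hk'⟩ := exists_lift (f.comp P₁.subtype) N.subtype
    (AEC.Emb.comp hf (AEC.emb_subtype.2 hP₁)) (AEC.emb_subtype.2 hN) fun p => ⟨⟨f p, hfP p⟩, rfl⟩
  obtain ⟨g, hg, hg'⟩ := hs₁ P₁ N P₁.subtype k (AEC.emb_subtype.2 hP₁) hk hP₁c hNc
  have hgf : ∀ p : P₁, g ⟨f p, hfP p⟩ = p := by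
    intro p
    have h1 : k p = ⟨f p, hfP p⟩ := Subtype.ext (hk' p)
    rw [← h1]
    exact hg' p
  -- the preimages in `N`
  let PN : Set N := N.subtype ⁻¹' ((P₁.map f.toHom : L.Substructure C) : Set C)
  let VN : Set N := N.subtype ⁻¹' (V' : Set C)
  have hPN : N.subtype '' PN = ((P₁.map f.toHom : L.Substructure C) : Set C) := by
    rw [image_preimage_eq_iff]
    exact fun z hz => ⟨⟨z, hV'N (hPV' hz)⟩, rfl⟩
  have hVN : N.subtype '' VN = (V' : Set C) := by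
    rw [image_preimage_eq_iff]
    exact fun z hz => ⟨⟨z, hV'N hz⟩, rfl⟩
  have hgP : g '' PN = (P₁ : Set C₁) := by
    ext z
    constructor
    · rintro ⟨⟨_, hy⟩, ⟨p, hp, rfl⟩, rfl⟩
      have h1 : g ⟨f p, hfP ⟨p, hp⟩⟩ = p := hgf ⟨p, hp⟩
      change g ⟨f p, hy⟩ ∈ (P₁ : Set C₁)
      rw [h1]
      exact hp
    · intro hz
      exact ⟨⟨f z, hfP ⟨z, hz⟩⟩, ⟨z, hz, rfl⟩, hgf ⟨z, hz⟩⟩
  -- the image of `V'`
  obtain ⟨iV, hiV, hiV'⟩ := exists_lift V'.subtype N.subtype (AEC.emb_subtype.2 hV')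
    (AEC.emb_subtype.2 hN) fun d => ⟨⟨d, hV'N d.2⟩, rfl⟩
  have hV₁ : K.Emb (g.comp iV) := AEC.Emb.comp hg hiV
  let V₁ : L.Substructure C₁ := (g.comp iV).toHom.range
  have hV₁le : K.le V₁ := hV₁
  have hV₁set : g '' VN = (V₁ : Set C₁) := by
    ext z
    constructor
    · rintro ⟨y, hy, rfl⟩
      refine ⟨⟨(y : C), hy⟩, ?_⟩
      change g (iV ⟨y, hy⟩) = g y
      congr 1
      exact Subtype.ext (hiV' ⟨y, hy⟩)
    · rintro ⟨d, rfl⟩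
      exact ⟨iV d, by
        change ((iV d : N) : C) ∈ V'
        have h1 : ((iV d : N) : C) = d := hiV' d
        rw [h1]
        exact d.2, rfl⟩
  have hV₁c : #V₁ = θ := by
    rw [← hV'c]
    exact (mk_congr (g.comp iV).equivRange.toEquiv).symm
  have hP₁V₁ : P₁ ≤ V₁ := by
    intro p hp
    rw [← SetLike.mem_coe, ← hV₁set]
    exact ⟨⟨f p, hfP ⟨p, hp⟩⟩, hPV' ⟨p, hp, rfl⟩, hgf ⟨p, hp⟩⟩
  have hxV₁ : g ⟨x, hxN⟩ ∉ V₁ := by
    intro h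
    rw [← SetLike.mem_coe, ← hV₁set] at h
    obtain ⟨y, hy, hyx⟩ := h
    have h1 : y = ⟨x, hxN⟩ := g.injective hyx
    rw [h1] at hy
    exact hxV (hV'V hy)
  -- the types
  have hsame : SameT L μ (P₁ : Set C₁) a₁ (g ⟨x, hxN⟩) := by
    intro ξ y hξ hy
    have hc := mk_sum_le' hμ hξ h1μ
    have h1 := EqS.map_emb hK hunb hℓμ f hf hthrC₁ hc (Sum.elim y (one a₁))
    have h2 := hax ξ (fun z => f (y z)) hξ fun z => ⟨y z, hy z, rfl⟩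
    let y' : ξ → N := fun z => ⟨f (y z), hfP ⟨y z, hy z⟩⟩
    have h3 := EqS.map_emb hK hunb hℓμ N.subtype (AEC.emb_subtype.2 hN) hthrN hc
      (Sum.elim y' (one ⟨x, hxN⟩))
    have h4 := EqS.map_emb hK hunb hℓμ g hg hthrN hc (Sum.elim y' (one ⟨x, hxN⟩))
    have h5 : EqS L μ (Sum.elim y (one a₁)) (Sum.elim (fun z => f (y z)) (one (f a₁))) := by
      refine h1.subset ?_
      rintro _ ⟨z | z, rfl⟩
      · exact ⟨Sum.inl z, rfl⟩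
      · exact ⟨Sum.inr z, rfl⟩
    have h6 : EqS L μ (Sum.elim y' (one ⟨x, hxN⟩)) (Sum.elim (fun z => f (y z)) (one x)) := by
      refine h3.subset ?_
      rintro _ ⟨z | z, rfl⟩
      · exact ⟨Sum.inl z, rfl⟩
      · exact ⟨Sum.inr z, rfl⟩
    have h7 : EqS L μ (Sum.elim y' (one ⟨x, hxN⟩)) (Sum.elim y (one (g ⟨x, hxN⟩))) := by
      refine h4.subset ?_
      rintro _ ⟨z | z, rfl⟩
      · exact ⟨Sum.inl z, Prod.ext rfl (hgf ⟨y z, hy z⟩)⟩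
      · exact ⟨Sum.inr z, rfl⟩
    exact ((h5.trans h2).trans h6.symm).trans h7
  have h1 := hmin V₁ hV₁le hV₁c hP₁V₁ _ hxV₁ hsame
  have h2 : Ind L κf μ PN VN (one (⟨x, hxN⟩ : N)) :=
    (Ind.map_of hK hunb hℓμ g hg hthrN h1μ hgP hV₁set fun _ => rfl).1 h1
  have h3 : Ind L κf μ ((P₁.map f.toHom : L.Substructure C) : Set C) (V' : Set C) (one x) :=
    (Ind.map_of hK hunb hℓμ N.subtype (AEC.emb_subtype.2 hN) hthrN h1μ hPN hVN
      fun _ => rfl).2 h2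
  exact h3.mono fun z hz => Or.inr (hmV' hz)

/-- The set of realizations of a minimal type over a small submodel. -/
theorem exists_min_set : ∃ (P : L.Substructure C) (Q : Set C), K.le P ∧ #P = θ ∧
    (∀ g : C ≃[L] C, (∀ p ∈ P, g p = p) → ∀ x ∈ Q, g x ∈ Q) ∧
    (∀ V : L.Substructure C, K.le V → #V = Λ → P ≤ V → ∀ x ∈ Q, x ∉ V → ∀ y ∈ Q, y ∉ V →
      ∃ g : C ≃[L] C, (∀ v ∈ V, g v = v) ∧ g x = y) ∧
    (∀ X : Set C, #X ≤ Λ → ∃ x ∈ Q, x ∉ X) ∧ ∀ x ∈ Q, x ∉ P := by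
  have hμ := hl.hμ hK
  have hℓμ : ℓ ≤ μ := hl.hℓμ
  have hμρ := hl.μρ hunb
  have h1μ : #(PUnit.{u + 1}) ≤ μ := mk_punit_le hμ
  have hlΛ := hl.up hθΛ
  have hΛ0 : ℵ₀ ≤ Λ := hK.1.trans (hθ.pt.lt.le.trans hθΛ.le)
  have hℓΛ : ℓ ≤ Λ := hθ.pt.lt.le.trans hθΛ.le
  obtain ⟨P, a, hP, hPc, haP, hmin⟩ := exists_min_small hθ hΛ hθΛ hK hunb hl hCm hs hCc
  have hD : Refl L ρ (P : Set C) := refl_of_le hK hunb (hℓμ.trans hμρ) hP (hl.thr.trans hPc.ge)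
  have hQP : ∀ x, SameT L μ (P : Set C) a x → x ∉ P := fun x hx h => haP (hx.symm.mem hμ h)
  refine ⟨P, {x | SameT L μ (P : Set C) a x}, hP, hPc, ?_, ?_, ?_, hQP⟩
  · intro g hg x hx
    exact SameT.trans hx (SameT.of_equiv hμ g hg x)
  · intro V hV hVc hPV x hx hxV y hy hyV
    refine exists_aut_one hΛ hK hunb hlΛ hCm hs hCc hV hVc ?_
    have h1 := hmin V hV hVc hPV x hxV hx
    have h2 := hmin V hV hVc hPV y hyV hy
    intro ζ z hζ hz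
    exact Ind.uniq hμ hμρ hl.opB h1μ hD h1 h2 (SameT.trans (SameT.symm hx) hy) hζ z
      fun i => Or.inr (hz i)
  · intro X hX
    obtain ⟨V, hV, hVA, hVc⟩ := exists_sub_card hK hℓΛ hCm ((Order.le_succ Λ).trans hCc.ge)
      ((P : Set C) ∪ X) ((mk_union_le _ _).trans (add_le_of_le hΛ0 (hPc.le.trans hθΛ.le) hX))
    have hPV : (P : Set C) ⊆ V := fun p hp => hVA (Or.inl hp)
    obtain ⟨b, hb, hab⟩ := exists_free_one hΛ hK hunb hlΛ hCm hs hCc hV hVc hPV hD a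
    refine ⟨b, hab, fun hbX => hQP b hab (mem_of_ind hμ hb (Or.inr (hVA (Or.inr hbX))))⟩

end Vale.Agent.P307.R2.H578
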