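import Vale.Agent.P307.R2.H578.MinPG
import Vale.Agent.P307.R2.H578.Min2
import Vale.Agent.P307.R2.H541.Free

/-!
The minimal set of the saturated member of size `θ⁺`.
-/

set_option linter.unusedSectionVars false

universe u

open FirstOrder Cardinal Set

namespace Vale.Agent.P307.R2.H578

open Vale.Agent.P307 Vale.Agent.P307.H304 Vale.Agent.P307.R2.H287 Vale.Agent.P307.R2.H1
  Vale.Agent.P307.R2.H971 Vale.Agent.P307.R2.H804 Vale.Agent.P307.R2.H541
  Language.Structure Language.Substructure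

variable {L : Language.{u, u}} {K : AEC L} {ℓ θ θ₀ : Cardinal.{u}}
  {κf α : Cardinal.{u} → Cardinal.{u}} {C : Type u} [L.Structure C]

/-- **Minimal sets exist**: over a strong submodel of the size of a smaller base point. -/
theorem exists_min (hθ₀ : BasePt K ℓ κf α θ₀) (hθθ : θ₀ < θ) (h₀ : BasePt K ℓ κf α θ)
    (hK : K.IsLS ℓ) (hunb : ∀ ν, ν < κf ν ∧ K.CategoricalIn (κf ν))
    (hst : Stab K ℓ α (H287.thr κf)) (hCm : K.mem C) (hs : Sat K θ C)
    (hCc : #C = Order.succ θ) : ∃ (P : L.Substructure C) (Q : Set C), K.le P ∧ #P = θ₀ ∧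
      (pg h₀ hK hunb hst hCm hs hCc).Min (P : Set C) Q := by
  obtain ⟨ν, μ, ρ, -, -, hl⟩ := exists_lvl hθ₀ (σ := 0)
    (aleph0_pos.trans_le (hK.1.trans hθ₀.pt.lt.le))
  obtain ⟨P, Q, hP, hPc, h1, h2, h3, h4⟩ := exists_min_set hθ₀ h₀ hθθ hK hunb hl hCm hs hCc
  refine ⟨P, Q, hP, hPc, ?_, ?_, ?_, h3, h4⟩
  · change #P < θ
    rw [hPc]
    exact hθθ
  · rintro g ⟨e, he⟩ hg x hx
    rw [← he x]
    exact h1 e (fun p hp => (he p).trans (hg p hp)) x hx
  · rintro _ ⟨V, hV, hVc, rfl⟩ hPV x hx hxV y hy hyV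
    obtain ⟨g, h5, h6⟩ := h2 V hV hVc hPV x hx hxV y hy hyV
    exact ⟨g.toEquiv, mem_autG g, h5, h6⟩

end Vale.Agent.P307.R2.H578
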