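import Vale.Agent.P307.R2.H541.Ext

/-!
Minimal sets in a homogeneous structure.
-/

universe u

open Set Cardinal Function

namespace Vale.Agent.P307.R2.H541

namespace PG

variable {C : Type u}

/-- A minimal set over a small set `p`: it is invariant over `p`, its elements outside a model `V`
which contains `p` are conjugate over `V`, and it is not contained in a set of size `χ`. -/
structure Min (M : PG C) (p Q : Set C) : Prop where
  small : #p < M.χ
  inv : ∀ g ∈ M.G, (∀ a ∈ p, g a = a) → ∀ x ∈ Q, g x ∈ Q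
  conj : ∀ V ∈ M.S, p ⊆ V → ∀ x ∈ Q, x ∉ V → ∀ y ∈ Q, y ∉ V →
    ∃ g ∈ M.G, (∀ v ∈ V, g v = v) ∧ g x = y
  big : ∀ X : Set C, #X ≤ M.χ → ∃ x ∈ Q, x ∉ X
  disj : ∀ x ∈ Q, x ∉ p

variable {M : PG C} {p Q V V' : Set C}

/-- Elements outside `V'` are free from `V'` over `V`. -/
theorem Min.ind (h : M.Min p Q) (hB : M.Big) (hV : V ∈ M.S) (hV' : V' ∈ M.S) (hpV : p ⊆ V)
    (hVV' : V ⊆ V') {x : C} (hx : x ∈ Q) (hxV : x ∉ V') : M.Ind V {x} V' := by
  obtain ⟨g, hg, h1, h2⟩ := hB.free (P := V) (E := {x}) (Z := V') hV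
    (small_finite (finite_singleton x)) (M.S_card hV').le
  rw [image_singleton] at h2
  have hgx : g x ∈ Q := h.inv g hg (fun a ha => h1 a (hpV ha)) x hx
  have hgxV : g x ∉ V' := by
    intro h3
    have h4 : g x ∈ V := h2.inter_sub ⟨rfl, h3⟩
    have h5 : g x = x := by
      apply g.injective
      rw [h1 _ h4]
    rw [h5] at h4
    exact hxV (hVV' h4)
  obtain ⟨k, hk, h3, h4⟩ := h.conj V' hV' (hpV.trans hVV') (g x) hgx hgxV x hx hxV
  have h5 := h2.smul hk
  rw [image_singleton, h4] at h5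
  have h6 : ∀ {W : Set C}, W ⊆ V' → k '' W = W := by
    intro W hW
    ext z
    constructor
    · rintro ⟨w, hw, rfl⟩
      rw [h3 w (hW hw)]
      exact hw
    · exact fun hz => ⟨z, hz, h3 z (hW hz)⟩
  rwa [h6 hVV', h6 Subset.rfl] at h5

/-- Two elements outside `V` realize the same small types over `V`. -/
theorem Min.same (h : M.Min p Q) (hV : V ∈ M.S) (hpV : p ⊆ V) {x y : C} (hx : x ∈ Q)
    (hxV : x ∉ V) (hy : y ∈ Q) (hyV : y ∉ V) :
    ∀ D ⊆ V, #D < M.χ → ∃ g ∈ M.G, (∀ d ∈ D, g d = d) ∧ g x = y := by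
  intro D hD _
  obtain ⟨g, hg, h1, h2⟩ := h.conj V hV hpV x hx hxV y hy hyV
  exact ⟨g, hg, fun d hd => h1 d (hD hd), h2⟩

end PG

end Vale.Agent.P307.R2.H541
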